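import Vale.Agent.P217.CharZero.Rec

/-!
The limit vector to first order, and independence of it together with its derivatives.
-/

noncomputable section

open Filter Finset
open scoped Topology

namespace Vale.Agent.P217.CharZero

variable {Ω : Type*} [NontriviallyNormedField Ω] {p N : ℕ} {r : ℝ}

/-- The homogeneous solution with initial value `1`. -/
def base (p N : ℕ) (α : Fin N → Ω) : ℕ → Ω := sol p N α (delta 0)

/-- The forcing of the derivative in direction `j`. -/
def dforce (p N : ℕ) (α : Fin N → Ω) (j : Fin N) (m : ℕ) : Ω :=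
  if j.1 < m then ((p ^ (m - (j.1 + 1)) : ℕ) : Ω) * α j ^ (p ^ (m - (j.1 + 1)) - 1) / (p : Ω)
    * base p N α (m - (j.1 + 1)) else 0

/-- The vector of the limit and of its partial derivatives. -/
def wcol (p N : ℕ) (α : Fin N → Ω) : Fin (N + 1) → Fin (N + 1) → Ω :=
  Fin.cases (imp p N α 0) fun j ↦ wlim p N α (dforce p N α j)

theorem sc_delta_self (t : ℕ) : sc p N (delta t : ℕ → Ω) t = (p : Ω) ^ (t / (N + 1)) := by
  simp [sc, delta]

theorem norm_sc_delta_le (_S : Setup Ω p r) (m : ℕ) : ‖sc p N (delta 0 : ℕ → Ω) m‖ ≤ 1 := by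
  rcases eq_or_ne m 0 with rfl | h
  · simp [sc_delta_self]
  · simp [sc, delta, h]

theorem norm_scaled_le (S : Setup Ω p r) (x : ℕ → Ω) (c : Ω) (m i : ℕ) :
    ‖(p : Ω) ^ (m / (N + 1)) * (c / (p : Ω) * x (m - i))‖
      ≤ ‖c‖ / ‖(p : Ω)‖ * ‖sc p N x (m - i)‖ := by
  rw [sc, norm_mul, norm_mul, norm_mul, norm_div, norm_pow, norm_pow]
  have h1 : ‖(p : Ω)‖ ^ (m / (N + 1)) ≤ ‖(p : Ω)‖ ^ ((m - i) / (N + 1)) :=
    pow_le_pow_of_le_one (norm_nonneg _) S.small.le (Nat.div_le_div_right (Nat.sub_le m i))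
  calc ‖(p : Ω)‖ ^ (m / (N + 1)) * (‖c‖ / ‖(p : Ω)‖ * ‖x (m - i)‖)
      ≤ ‖(p : Ω)‖ ^ ((m - i) / (N + 1)) * (‖c‖ / ‖(p : Ω)‖ * ‖x (m - i)‖) :=
        mul_le_mul_of_nonneg_right h1 (by positivity)
    _ = _ := by ring

theorem base_zero (α : Fin N → Ω) : base p N α 0 = 1 := by
  rw [base, sol_eq, step]; simp [delta]

variable [IsUltrametricDist Ω] {α β : Fin N → Ω}

theorem norm_natCast_le (k : ℕ) : ‖(k : Ω)‖ ≤ 1 := IsUltrametricDist.norm_natCast_le_one Ω k

theorem norm_pow_base_le (S : Setup Ω p r) (hα : ∀ j, ‖α j‖ ≤ r) (m : ℕ) :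
    ‖(p : Ω) ^ m * base p N α m‖ ≤ 1 := by
  induction m using Nat.strong_induction_on with
  | _ m ih =>
    rcases Nat.eq_zero_or_pos m with rfl | hm
    · simp [base_zero]
    have hp := S.ne_zero
    have key : ∀ (c : Ω) (i : ℕ), ‖c‖ ≤ 1 → 1 ≤ i → i ≤ m →
        ‖(p : Ω) ^ m * (c / (p : Ω) * base p N α (m - i))‖ ≤ 1 := by
      intro c i hc hi1 him
      have e : (p : Ω) ^ m = (p : Ω) * (p : Ω) ^ (i - 1) * (p : Ω) ^ (m - i) := by
        rw [← pow_succ', ← pow_add]; congr 1; omega
      rw [e, show (p : Ω) * (p : Ω) ^ (i - 1) * (p : Ω) ^ (m - i) * (c / (p : Ω) * base p N α (m - i))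
        = (p : Ω) ^ (i - 1) * c * ((p : Ω) ^ (m - i) * base p N α (m - i)) by field_simp,
        norm_mul, norm_mul, norm_pow]
      exact mul_le_one₀ (mul_le_one₀ (pow_le_one₀ (norm_nonneg _) S.small.le) (norm_nonneg _) hc)
        (norm_nonneg _) (ih _ (by omega))
    rw [base, sol_eq, show delta 0 m = (0 : Ω) by simp [delta, hm.ne'], zero_add, step, mul_add,
      mul_sum]
    refine norm_add_le_of_le (IsUltrametricDist.norm_sum_le_of_forall_le_of_nonneg zero_le_one
      fun j _ ↦ ?_) ?_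
    · split_ifs with h
      · exact key _ _ (by rw [norm_pow]; exact pow_le_one₀ (norm_nonneg _) ((hα j).trans S.r_lt.le))
          (by omega) (by omega)
      · simp
    · split_ifs with h
      · rw [div_eq_mul_one_div, mul_comm (sol p N α _ _)]
        exact key 1 (N + 1) (by simp) (by omega) (by omega)
      · simp

theorem norm_dforce_le (S : Setup Ω p r) (hα : ∀ j, ‖α j‖ ≤ r) {K : ℝ}
    (hK : ∀ m, ‖sc p N (base p N α) m‖ ≤ K) (j : Fin N) (m : ℕ) :
    ‖sc p N (dforce p N α j) m‖ ≤ r ^ (m - (j.1 + 1)) / ‖(p : Ω)‖ * K := by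
  have hK0 : 0 ≤ K := (norm_nonneg _).trans (hK 0)
  have := S.r_nonneg
  rw [sc, dforce]
  split_ifs with h
  · refine (norm_scaled_le S _ _ _ _).trans (mul_le_mul
      (div_le_div_of_nonneg_right ?_ (norm_nonneg _)) (hK _) (norm_nonneg _) (by positivity))
    rw [norm_mul, norm_pow]
    refine (mul_le_of_le_one_left (by positivity) (norm_natCast_le _)).trans
      ((pow_le_pow_left₀ (norm_nonneg _) (hα j) _).trans (pow_le_pow_of_le_one S.r_nonneg S.r_lt.le ?_))
    have := Nat.lt_pow_self (n := m - (j.1 + 1)) (show 1 < p from S.two_le)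
    omega
  · rw [mul_zero, norm_zero]; positivity

omit [IsUltrametricDist Ω] in
theorem base_bound (S : Setup Ω p r) {K : ℝ} (hK : ∀ α : Fin N → Ω,
    (∀ j, ‖α j‖ ≤ r) → ∀ (F : ℕ → Ω) (B : ℝ), 0 ≤ B → (∀ m, ‖sc p N F m‖ ≤ B) →
      ∀ m, ‖sc p N (sol p N α F) m‖ ≤ K * B)
    (hα : ∀ j, ‖α j‖ ≤ r) (m : ℕ) : ‖sc p N (base p N α) m‖ ≤ K := by
  simpa [base] using hK α hα (delta 0) 1 zero_le_one (norm_sc_delta_le S) m

theorem tendsto_dforce (S : Setup Ω p r) (hα : ∀ j, ‖α j‖ ≤ r) (j : Fin N) :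
    Tendsto (sc p N (dforce p N α j)) atTop (𝓝 0) := by
  obtain ⟨K, -, hK⟩ := exists_bound S N
  refine squeeze_zero_norm (norm_dforce_le S hα (base_bound S hK hα) j) ?_
  have h := (((tendsto_pow_atTop_nhds_zero_of_lt_one S.r_nonneg S.r_lt).comp
    (tendsto_sub_atTop_nat (j.1 + 1))).div_const ‖(p : Ω)‖).mul_const K
  simpa using h

theorem norm_pow_sub_pow_le {a b : Ω} {ε : ℝ} (ha : ‖a‖ ≤ 1) (hb : ‖b‖ ≤ 1) (hab : ‖b - a‖ ≤ ε)
    (k : ℕ) : ‖b ^ k - a ^ k‖ ≤ ε := by
  rw [← (Commute.all b a).geom_sum₂_mul, norm_mul]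
  refine le_trans (mul_le_of_le_one_left (norm_nonneg _)
    (IsUltrametricDist.norm_sum_le_of_forall_le_of_nonneg zero_le_one fun i _ ↦ ?_)) hab
  rw [norm_mul, norm_pow, norm_pow]
  exact mul_le_one₀ (pow_le_one₀ (norm_nonneg _) hb) (by positivity)
    (pow_le_one₀ (norm_nonneg _) ha)

theorem norm_pow_taylor_le {a b : Ω} {ε : ℝ} (ha : ‖a‖ ≤ 1) (hb : ‖b‖ ≤ 1) (hab : ‖b - a‖ ≤ ε)
    (k : ℕ) : ‖b ^ k - a ^ k - (k : Ω) * a ^ (k - 1) * (b - a)‖ ≤ ε ^ 2 := by
  have hε : 0 ≤ ε := (norm_nonneg _).trans hab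
  rcases k with _ | k
  · simp; positivity
  induction k with
  | zero => simp; positivity
  | succ k ih =>
    have e : b ^ (k + 1 + 1) - a ^ (k + 1 + 1) - ((k + 1 + 1 : ℕ) : Ω) * a ^ (k + 1 + 1 - 1) * (b - a)
        = a * (b ^ (k + 1) - a ^ (k + 1) - ((k + 1 : ℕ) : Ω) * a ^ (k + 1 - 1) * (b - a))
          + (b - a) * (b ^ (k + 1) - a ^ (k + 1)) := by
      simp only [Nat.add_sub_cancel]
      push_cast
      ring
    rw [e]
    refine norm_add_le_of_le ?_ ?_
    · rw [norm_mul]; exact (mul_le_of_le_one_left (norm_nonneg _) ha).trans ih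
    · rw [norm_mul, sq]; exact mul_le_mul hab (norm_pow_sub_pow_le ha hb hab _) (norm_nonneg _) hε

variable [CompleteSpace Ω]

/-- The limit vector to first order, uniformly in the point. -/
theorem exists_taylor (S : Setup Ω p r) (N : ℕ) : ∃ K : ℝ, 0 ≤ K ∧ ∀ α β : Fin N → Ω,
    (∀ j, ‖α j‖ ≤ r) → (∀ j, ‖β j‖ ≤ r) → ∀ ε : ℝ, 0 ≤ ε → ε ≤ 1 → (∀ j, ‖β j - α j‖ ≤ ε) →
    ∀ s, ‖imp p N β 0 s‖ ≤ K ∧ ‖imp p N β 0 s - imp p N α 0 s‖ ≤ K * ε ∧
      ‖imp p N β 0 s - imp p N α 0 s - ∑ j : Fin N, (β j - α j) * wcol p N α j.succ s‖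
        ≤ K * ε ^ 2 := by
  obtain ⟨K, hK1, hK⟩ := exists_bound S N
  set c := ‖(p : Ω)‖⁻¹ with hc
  have hc1 : 1 ≤ c := (one_le_inv₀ S.pos).mpr S.small.le
  refine ⟨K ^ 3 * c ^ 2, by positivity, fun α β hα hβ ε hε0 hε1 hD s ↦ ?_⟩
  have hKc : 1 ≤ K * c := one_le_mul_of_one_le_of_one_le hK1 hc1
  have hKK : K ≤ K ^ 3 * c ^ 2 := by
    calc K = K * 1 := (mul_one K).symm
      _ ≤ K * ((K * c) * (K * c)) :=
        mul_le_mul_of_nonneg_left (one_le_mul_of_one_le_of_one_le hKc hKc) (by linarith)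
      _ = _ := by ring
  have hxa := base_bound S hK hα
  have hxb := base_bound S hK hβ
  have hA : ∀ j, ‖α j‖ ≤ 1 := fun j ↦ (hα j).trans S.r_lt.le
  have hB : ∀ j, ‖β j‖ ≤ 1 := fun j ↦ (hβ j).trans S.r_lt.le
  set E : ℕ → Ω := fun m ↦ ∑ j : Fin N, if j.1 < m then
    (β j ^ p ^ (m - (j.1 + 1)) - α j ^ p ^ (m - (j.1 + 1))) / (p : Ω)
      * base p N β (m - (j.1 + 1)) else 0 with hEdef
  have hdiff : sol p N α E = fun m ↦ base p N β m + (-1) * base p N α m := by
    refine (sol_unique fun m ↦ ?_).symm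
    rw [step_add]
    have h1 : step p N β (base p N β) m = step p N α (base p N β) m + E m := by
      simp only [step, hEdef]
      rw [add_right_comm, ← sum_add_distrib]
      congr 1
      exact sum_congr rfl fun j _ ↦ by split_ifs <;> ring
    have h2 : base p N β m = delta 0 m + step p N β (base p N β) m := sol_eq _ _
    have h3 : base p N α m = delta 0 m + step p N α (base p N α) m := sol_eq _ _
    linear_combination h2 - h3 + h1
  have hE : ∀ m, ‖sc p N E m‖ ≤ c * K * ε := by
    intro m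
    rw [sc, hEdef, mul_sum]
    refine IsUltrametricDist.norm_sum_le_of_forall_le_of_nonneg (by positivity) fun j _ ↦ ?_
    split_ifs
    · refine (norm_scaled_le S _ _ _ _).trans ?_
      rw [div_eq_mul_inv, ← hc]
      calc _ ≤ ε * c * K := mul_le_mul (mul_le_mul_of_nonneg_right
            (norm_pow_sub_pow_le (hA j) (hB j) (hD j) _) (by positivity)) (hxb _)
            (norm_nonneg _) (by positivity)
        _ = _ := by ring
    · rw [mul_zero, norm_zero]; positivity
  have hd1 : ∀ m, ‖sc p N (base p N β) m - sc p N (base p N α) m‖ ≤ K * (c * K * ε) := by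
    intro m
    have h := hK α hα E _ (by positivity) hE m
    rw [hdiff] at h
    refine le_trans (le_of_eq ?_) h
    simp only [sc]; congr 1; ring
  set E₂ : ℕ → Ω := fun m ↦ E m + (-1) * ∑ j : Fin N, (β j - α j) * dforce p N α j m
  have hE2 : ∀ m, ‖sc p N E₂ m‖ ≤ c ^ 2 * K ^ 2 * ε ^ 2 := by
    intro m
    have e : sc p N E₂ m = ∑ j : Fin N, (p : Ω) ^ (m / (N + 1)) * (if j.1 < m then
        (β j ^ p ^ (m - (j.1 + 1)) - α j ^ p ^ (m - (j.1 + 1))
          - ((p ^ (m - (j.1 + 1)) : ℕ) : Ω) * α j ^ (p ^ (m - (j.1 + 1)) - 1) * (β j - α j)) / (p : Ω)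
            * base p N β (m - (j.1 + 1))
        + ((p ^ (m - (j.1 + 1)) : ℕ) : Ω) * α j ^ (p ^ (m - (j.1 + 1)) - 1) * (β j - α j) / (p : Ω)
            * (fun i ↦ base p N β i + (-1) * base p N α i) (m - (j.1 + 1)) else 0) := by
      simp only [sc, E₂, hEdef, mul_sum, mul_add]
      rw [← sum_add_distrib]
      refine sum_congr rfl fun j _ ↦ ?_
      simp only [dforce]
      split_ifs <;> ring
    rw [e]
    refine IsUltrametricDist.norm_sum_le_of_forall_le_of_nonneg (by positivity) fun j _ ↦ ?_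
    split_ifs
    · rw [mul_add]
      refine norm_add_le_of_le ((norm_scaled_le S _ _ _ _).trans ?_)
        ((norm_scaled_le S (fun i ↦ base p N β i + (-1) * base p N α i) _ m _).trans ?_)
      · rw [div_eq_mul_inv, ← hc]
        calc _ ≤ ε ^ 2 * c * K := mul_le_mul (mul_le_mul_of_nonneg_right
              (norm_pow_taylor_le (hA j) (hB j) (hD j) _) (by positivity)) (hxb _)
              (norm_nonneg _) (by positivity)
          _ = c * K * ε ^ 2 := by ring
          _ ≤ (c * K) * (c * K) * ε ^ 2 := mul_le_mul_of_nonneg_right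
              (le_mul_of_one_le_left (by positivity) (mul_comm K c ▸ hKc)) (by positivity)
          _ = _ := by ring
      · rw [div_eq_mul_inv, ← hc]
        have h1 : ‖((p ^ (m - (j.1 + 1)) : ℕ) : Ω) * α j ^ (p ^ (m - (j.1 + 1)) - 1)
            * (β j - α j)‖ ≤ ε := by
          rw [norm_mul, norm_mul, norm_pow]
          exact (mul_le_of_le_one_left (norm_nonneg _) (mul_le_one₀ (norm_natCast_le _)
            (by positivity) (pow_le_one₀ (norm_nonneg _) (hA j)))).trans (hD j)
        have h2 : ‖sc p N (fun i ↦ base p N β i + (-1) * base p N α i) (m - (j.1 + 1))‖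
            ≤ K * (c * K * ε) := by
          refine le_trans (le_of_eq ?_) (hd1 (m - (j.1 + 1)))
          simp only [sc]; congr 1; ring
        calc _ ≤ ε * c * (K * (c * K * ε)) :=
              mul_le_mul (mul_le_mul_of_nonneg_right h1 (by positivity)) h2 (norm_nonneg _)
                (by positivity)
          _ = _ := by ring
    · rw [mul_zero, norm_zero]; positivity
  have hta := tendsto_wlim S hα (tendsto_sc_delta (N := N) 0) s
  have htb := tendsto_wlim S hβ (tendsto_sc_delta (N := N) 0) s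
  refine ⟨?_, ?_, ?_⟩
  · refine (norm_wlim_le S hK hβ (tendsto_sc_delta 0) zero_le_one (norm_sc_delta_le S) s).trans ?_
    rwa [mul_one]
  · refine le_of_tendsto (htb.sub hta).norm (Eventually.of_forall fun k ↦ (hd1 _).trans ?_)
    calc K * (c * K * ε) = K ^ 2 * c * 1 * ε := by ring
      _ ≤ K ^ 2 * c * (K * c) * ε := by gcongr
      _ = _ := by ring
  · have hsum : Tendsto (fun k ↦ ∑ j : Fin N, (β j - α j) *
        sc p N (sol p N α (dforce p N α j)) ((N + 1) * k + s.1)) atTop
        (𝓝 (∑ j : Fin N, (β j - α j) * wcol p N α j.succ s)) :=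
      tendsto_finsetSum _ fun j _ ↦ by
        simpa [wcol] using (tendsto_wlim S hα (tendsto_dforce S hα j) s).const_mul (β j - α j)
    refine le_of_tendsto (((htb.sub hta).sub hsum).norm) (Eventually.of_forall fun k ↦ ?_)
    set m := (N + 1) * k + s.1
    have h := hK α hα E₂ _ (by positivity) hE2 m
    rw [sol_add, sol_sum, hdiff] at h
    refine le_trans (le_of_eq ?_) (h.trans (le_of_eq (by ring)))
    congr 1
    simp only [sc, base, mul_add, mul_sum]
    rw [sub_eq_add_neg (_ - _), ← sum_neg_distrib]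
    refine congr_arg₂ (· + ·) (by ring) (sum_congr rfl fun j _ ↦ by ring)

/-- Late impulse responses are nearly the standard vectors. -/
theorem norm_imp_sub_le (S : Setup Ω p r) (hα : ∀ j, ‖α j‖ ≤ r) {θ : ℝ} (hθ0 : 0 ≤ θ) (hθ1 : θ ≤ 1)
    (k₀ : ℕ) (hk : ∀ u, (N + 1) * k₀ ≤ u → cb Ω p r u ≤ θ) (s s' : Fin (N + 1)) :
    ‖imp p N α ((N + 1) * k₀ + s.1) s' - (if s' = s then (p : Ω) ^ k₀ else 0)‖
      ≤ θ * ‖(p : Ω)‖ ^ k₀ := by
  set t := (N + 1) * k₀ + s.1 with ht
  have htdiv : t / (N + 1) = k₀ := by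
    rw [ht, Nat.mul_add_div (Nat.succ_pos N), Nat.div_eq_of_lt s.2, add_zero]
  set z := sc p N (sol p N α (delta t))
  set ind : ℕ → Ω := fun m ↦ if t ≤ m ∧ (N + 1) ∣ (m - t) then (p : Ω) ^ k₀ else 0 with hind
  have hind_le : ∀ m, ‖ind m‖ ≤ ‖(p : Ω)‖ ^ k₀ := fun m ↦ by
    simp only [hind]; split_ifs
    · rw [norm_pow]
    · simp
  have hzero : ∀ m, m < t → z m = 0 := by
    intro m
    induction m using Nat.strong_induction_on with
    | _ m ih =>
      intro hm
      have hd : delta t m = (0 : Ω) := by simp [delta, hm.ne]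
      simp only [z, sc] at ih ⊢
      rw [sol_eq, hd, zero_add, step]
      have h0 : ∀ i, i < m → sol p N α (delta t) i = 0 := fun i hi ↦
        (mul_eq_zero.mp (ih i hi (hi.trans hm))).resolve_left (pow_ne_zero _ S.ne_zero)
      rw [sum_eq_zero fun j _ ↦ ?_, zero_add]
      · split_ifs with h
        · rw [h0 _ (by omega), zero_div, mul_zero]
        · rw [mul_zero]
      · split_ifs with h
        · rw [h0 _ (by omega), mul_zero]
        · rfl
  have key : ∀ m, ‖z m - ind m‖ ≤ θ * ‖(p : Ω)‖ ^ k₀ := by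
    intro m
    induction m using Nat.strong_induction_on with
    | _ m ih =>
      rcases lt_or_ge m t with hm | hm
      · simp [hzero m hm, hind, not_le.mpr hm]; positivity
      have hz : ∀ i, i < m → ‖z i‖ ≤ ‖(p : Ω)‖ ^ k₀ := fun i hi ↦ by
        have := norm_add_le_of_le ((ih i hi).trans (mul_le_of_le_one_left (by positivity) hθ1))
          (hind_le i)
        simpa using this
      have hB : 0 ≤ θ * ‖(p : Ω)‖ ^ k₀ := by positivity
      rcases eq_or_lt_of_le hm with rfl | hgt
      · have : z t = (p : Ω) ^ k₀ := by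
          have h0 : ∀ i, i < t → sol p N α (delta t) i = 0 := fun i hi ↦
            (mul_eq_zero.mp (hzero i hi)).resolve_left (pow_ne_zero _ S.ne_zero)
          simp only [z, sc]
          rw [sol_eq, step, sum_eq_zero fun j _ ↦ ?_, htdiv]
          · split_ifs with h
            · rw [h0 _ (by omega)]; simp [delta]
            · simp [delta]
          · split_ifs with h
            · rw [h0 _ (by omega), mul_zero]
            · rfl
        simp [this, hind, hB]
      have h1 := norm_sc_step (F := delta t) (m := m) (B := θ * ‖(p : Ω)‖ ^ k₀) S hα hB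
        (by simp [sc, delta, hgt.ne', hB]) fun j hj ↦ by
          rcases lt_or_ge (m - (j.1 + 1)) t with h | h
          · rw [show sc p N (sol p N α (delta t)) (m - (j.1 + 1)) = 0 from hzero _ h, norm_zero,
              mul_zero]
            exact hB
          · exact mul_le_mul (hk _ ((Nat.le_add_right _ _).trans h)) (hz _ (by omega))
              (norm_nonneg _) hθ0
      by_cases hlt : N < m
      · rw [if_pos hlt] at h1
        have e : ind m = ind (m - (N + 1)) := by
          simp only [hind]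
          refine if_congr ⟨fun h ↦ ?_, fun h ↦ ⟨hm, ?_⟩⟩ rfl rfl
          · obtain ⟨q, hq⟩ := h.2
            have hq1 : 1 ≤ q := by
              rcases Nat.eq_zero_or_pos q with rfl | hq0
              · omega
              · exact hq0
            have : N + 1 ≤ m - t := hq ▸ Nat.le_mul_of_pos_right _ hq1
            exact ⟨by omega, by
              rw [show m - (N + 1) - t = m - t - (N + 1) by omega]
              exact Nat.dvd_sub h.2 (dvd_refl _)⟩
          · rw [show m - t = m - (N + 1) - t + (N + 1) by omega]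
            exact dvd_add h.2 (dvd_refl _)
        rw [e, show z m - ind (m - (N + 1))
          = (z m - z (m - (N + 1))) + (z (m - (N + 1)) - ind (m - (N + 1))) by ring]
        exact norm_add_le_of_le h1 (ih _ (by omega))
      · rw [if_neg hlt, sub_zero] at h1
        have : ¬ (N + 1) ∣ (m - t) := fun h ↦ by
          have := Nat.le_of_dvd (by omega) h; omega
        simpa [hind, this] using h1
  refine le_of_tendsto (((tendsto_wlim S hα (tendsto_sc_delta t) s').sub
    tendsto_const_nhds).norm) (eventually_atTop.mpr ⟨k₀ + 1, fun k hk' ↦ ?_⟩)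
  refine le_trans (le_of_eq ?_) (key ((N + 1) * k + s'.1))
  congr 2
  simp only [hind]
  obtain ⟨e, rfl⟩ : ∃ e, k = k₀ + (e + 1) := ⟨k - k₀ - 1, by omega⟩
  have hs := s.2
  have hexp : (N + 1) * (k₀ + (e + 1)) = (N + 1) * k₀ + ((N + 1) * e + (N + 1)) := by ring
  refine if_congr ⟨fun h ↦ ⟨by omega, e + 1, by subst h; rw [mul_add_one]; omega⟩, fun h ↦ ?_⟩ rfl rfl
  obtain ⟨q, hq⟩ := h.2
  have h1 : (N + 1) * (k₀ + (e + 1)) + s'.1 = (N + 1) * (k₀ + q) + s.1 := by
    rw [mul_add (N + 1) k₀ q]; omega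
  have h2 := congr_arg (· % (N + 1)) h1
  simp only [Nat.mul_add_mod, Nat.mod_eq_of_lt hs, Nat.mod_eq_of_lt s'.2] at h2
  exact Fin.ext h2

/-- The limit and its derivatives are independent. -/
theorem wcol_injective (S : Setup Ω p r) (hα : ∀ j, ‖α j‖ ≤ r) (L : Fin (N + 1) → Ω)
    (hL : ∀ i, ∑ s, L s * wcol p N α i s = 0) : L = 0 := by
  set lam : ℕ → Ω := fun t ↦ ∑ s, L s * imp p N α t s with hlam
  obtain ⟨i₀, -, hmax⟩ := exists_max_image (univ : Finset (Fin (N + 1))) (fun i ↦ ‖lam i.1‖)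
    univ_nonempty
  set Λ := ‖lam i₀.1‖
  have hall : ∀ t, ‖lam t‖ ≤ Λ := by
    intro t
    induction t using Nat.strong_induction_on with
    | _ t ih =>
      rcases lt_or_ge t (N + 1) with h | h
      · exact hmax ⟨t, h⟩ (mem_univ _)
      obtain ⟨u, rfl⟩ : ∃ u, t = u + N + 1 := ⟨t - (N + 1), by omega⟩
      have e : lam (u + N + 1) = (p : Ω) * lam u
          - ∑ j : Fin N, α j ^ p ^ u * lam (u + j.1 + 1) := by
        simp only [hlam, imp_relation S hα, mul_sub, sum_sub_distrib, mul_sum]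
        rw [sum_comm]
        congr 1
        · exact sum_congr rfl fun s _ ↦ by ring
        · exact sum_congr rfl fun j _ ↦ sum_congr rfl fun s _ ↦ by ring
      rw [e]
      refine norm_sub_le_of_le ?_ (IsUltrametricDist.norm_sum_le_of_forall_le_of_nonneg
        (norm_nonneg _) fun j _ ↦ ?_)
      · rw [norm_mul]
        exact (mul_le_of_le_one_left (norm_nonneg _) S.small.le).trans (ih u (by omega))
      · rw [norm_mul, norm_pow]
        exact (mul_le_of_le_one_left (norm_nonneg _) (pow_le_one₀ (norm_nonneg _)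
          ((hα j).trans S.r_lt.le))).trans (ih _ (by omega))
  obtain ⟨K, hK1, hK⟩ := exists_bound S N
  have hrest : ∀ j : Fin N, ‖lam (j.1 + 1)‖ ≤ r * Λ := by
    intro j
    set F : ℕ → Ω := fun m ↦ (p : Ω) * dforce p N α j m with hF
    set R : ℕ → Ω := fun m ↦ F m + (-1) * delta (j.1 + 1) m with hR
    have hRsmall : ∀ m, ‖R m‖ ≤ r := by
      intro m
      simp only [hR, hF, dforce]
      rcases lt_trichotomy m (j.1 + 1) with h | rfl | h
      · simp [delta, h.ne, show ¬ j.1 < m by omega, S.r_nonneg]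
      · have hp := S.ne_zero
        simp [delta, base_zero, hp, S.r_nonneg]
      · rw [if_pos (by omega), show delta (j.1 + 1) m = (0 : Ω) by simp [delta, h.ne'], mul_zero,
          add_zero]
        set u := m - (j.1 + 1)
        have hp := S.ne_zero
        rw [show (p : Ω) * (((p ^ u : ℕ) : Ω) * α j ^ (p ^ u - 1) / (p : Ω) * base p N α u)
          = α j ^ (p ^ u - 1) * ((p : Ω) ^ u * base p N α u) by push_cast; field_simp, norm_mul,
          norm_pow]
        refine (mul_le_of_le_one_right (by positivity) (norm_pow_base_le S hα u)).trans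
          ((pow_le_pow_left₀ (norm_nonneg _) (hα j) _).trans ?_)
        have hu : 1 < p ^ u := Nat.one_lt_pow (by omega) S.two_le
        exact pow_le_of_le_one S.r_nonneg S.r_lt.le (by omega)
    have hRn : Tendsto (sc p N R) atTop (𝓝 0) := by
      have hFn : Tendsto (sc p N F) atTop (𝓝 0) := by
        have := (tendsto_dforce S hα j).const_mul (p : Ω)
        rw [mul_zero] at this
        exact this.congr fun m ↦ by simp only [sc, hF]; ring
      exact tendsto_sc_add hFn (tendsto_sc_delta _) (-1)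
    have hlim : Tendsto (fun k ↦ ∑ s, L s * sc p N (sol p N α R) ((N + 1) * k + s.1)) atTop
        (𝓝 (-lam (j.1 + 1))) := by
      have h1 := tendsto_finsetSum (univ : Finset (Fin (N + 1))) fun s _ ↦
        (((tendsto_wlim S hα (tendsto_dforce S hα j) s).const_mul (p : Ω)).add
          ((tendsto_wlim S hα (tendsto_sc_delta (j.1 + 1)) s).const_mul (-1))).const_mul (L s)
      have e : ∑ s, L s * ((p : Ω) * wlim p N α (dforce p N α j) s
          + -1 * wlim p N α (delta (j.1 + 1)) s) = -lam (j.1 + 1) := by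
        have h0 := hL j.succ
        simp only [wcol, Fin.cases_succ] at h0
        simp only [hlam, imp, mul_add, sum_add_distrib]
        rw [show ∑ s, L s * ((p : Ω) * wlim p N α (dforce p N α j) s)
          = (p : Ω) * ∑ s, L s * wlim p N α (dforce p N α j) s by
            rw [mul_sum]; exact sum_congr rfl fun s _ ↦ by ring, h0, mul_zero, zero_add,
          ← sum_neg_distrib]
        exact sum_congr rfl fun s _ ↦ by ring
      rw [e] at h1
      refine h1.congr fun k ↦ sum_congr rfl fun s _ ↦ ?_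
      have es : sol p N α R = fun m ↦ (p : Ω) * sol p N α (dforce p N α j) m
          + (-1) * sol p N α (delta (j.1 + 1)) m := by
        rw [show R = fun m ↦ (fun m ↦ (fun _ ↦ (0 : Ω)) m + (p : Ω) * dforce p N α j m) m
          + (-1) * delta (j.1 + 1) m by funext m; simp [hR, hF], sol_add, sol_add, sol_zero]
        simp
      rw [es]; simp only [sc]; ring
    rw [← norm_neg]
    refine le_of_forall_pos_le_add fun η hη ↦ ?_
    obtain ⟨C, hC⟩ : ∃ C, ∀ s, ‖L s‖ ≤ C :=
      ⟨∑ s, ‖L s‖, fun s ↦ single_le_sum (fun i _ ↦ norm_nonneg (L i)) (mem_univ s)⟩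
    have hC0 : 0 ≤ C := (norm_nonneg _).trans (hC 0)
    obtain ⟨T, hT⟩ := eventually_atTop.mp ((tendsto_zero_iff_norm_tendsto_zero.mp hRn).eventually
      (eventually_le_nhds (show 0 < η / ((C + 1) * K) by positivity)))
    set tail : ℕ → Ω := fun m ↦ if m < T then 0 else R m
    have htail : ∀ m, ‖sc p N tail m‖ ≤ η / ((C + 1) * K) := fun m ↦ by
      simp only [sc, tail]
      split_ifs with h
      · rw [mul_zero, norm_zero]; positivity
      · exact hT m (not_lt.mp h)
    have hsplit : R = fun m ↦ (fun m ↦ ∑ t ∈ range T, R t * delta t m) m + 1 * tail m := by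
      funext m
      simp only [delta, Pi.single_apply, mul_ite, mul_one, mul_zero, sum_ite_eq, mem_range, tail,
        one_mul]
      split_ifs <;> simp
    have hsol : sol p N α R = fun m ↦
        (fun m ↦ ∑ t ∈ range T, R t * sol p N α (delta t) m) m + 1 * sol p N α tail m := by
      conv_lhs => rw [hsplit]
      rw [sol_add, sol_sum]
    have hlim2 := tendsto_finsetSum (range T) fun t _ ↦
      ((tendsto_finsetSum (univ : Finset (Fin (N + 1))) fun s _ ↦
        (tendsto_wlim S hα (tendsto_sc_delta t) s).const_mul (L s)).const_mul (R t))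
    have hsub := (hlim.sub hlim2).norm
    have hbd : ‖-lam (j.1 + 1) - ∑ t ∈ range T, R t * lam t‖ ≤ η := by
      refine le_of_tendsto hsub (Eventually.of_forall fun k ↦ ?_)
      simp only [mul_sum]
      rw [sum_comm (s := range T), ← sum_sub_distrib]
      refine IsUltrametricDist.norm_sum_le_of_forall_le_of_nonneg hη.le fun s _ ↦ ?_
      rw [hsol]
      simp only [sc, mul_add, mul_sum]
      rw [sum_congr rfl fun t _ ↦ (show R t * (L s * ((p : Ω) ^ (((N + 1) * k + s.1) / (N + 1))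
          * sol p N α (delta t) ((N + 1) * k + s.1))) = L s * ((p : Ω) ^ (((N + 1) * k + s.1) / (N + 1))
          * (R t * sol p N α (delta t) ((N + 1) * k + s.1))) by ring), add_sub_cancel_left, one_mul,
        norm_mul]
      refine (mul_le_mul (hC s) (hK α hα tail _ (by positivity) htail _) (norm_nonneg _) hC0).trans ?_
      calc C * (K * (η / ((C + 1) * K))) = C / (C + 1) * η := by field_simp
        _ ≤ η := mul_le_of_le_one_left hη.le (by rw [div_le_one (by positivity)]; linarith)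
    have hfin : ‖∑ t ∈ range T, R t * lam t‖ ≤ r * Λ :=
      IsUltrametricDist.norm_sum_le_of_forall_le_of_nonneg (mul_nonneg S.r_nonneg (norm_nonneg _))
        fun t _ ↦ by rw [norm_mul]; exact mul_le_mul (hRsmall t) (hall t) (norm_nonneg _) S.r_nonneg
    calc ‖-lam (j.1 + 1)‖ = ‖(-lam (j.1 + 1) - ∑ t ∈ range T, R t * lam t)
          + ∑ t ∈ range T, R t * lam t‖ := by rw [sub_add_cancel]
      _ ≤ _ := (norm_add_le _ _).trans (by linarith)
  have hΛ0 : Λ = 0 := by
    rcases Fin.eq_zero_or_eq_succ i₀ with h | ⟨j, hj⟩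
    · simp only [Λ, h]
      have h0 := hL 0
      simp only [wcol, Fin.cases_zero] at h0
      simp [hlam, h0]
    · have h := hrest j
      have e : i₀.1 = j.1 + 1 := by rw [hj]; rfl
      rw [← e] at h
      have := S.r_lt
      nlinarith [norm_nonneg (lam i₀.1)]
  obtain ⟨T, hT⟩ := eventually_atTop.mp
    ((tendsto_cb S).eventually (eventually_le_nhds (show (0 : ℝ) < 1 / 2 by norm_num)))
  obtain ⟨s₀, -, hs₀⟩ := exists_max_image (univ : Finset (Fin (N + 1))) (fun i ↦ ‖L i‖)
    univ_nonempty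
  have h0 : lam ((N + 1) * T + s₀.1) = 0 := norm_le_zero_iff.mp (hΛ0 ▸ hall _)
  have hb := fun s' ↦ norm_imp_sub_le (N := N) S hα (show (0 : ℝ) ≤ 1 / 2 by norm_num) (by norm_num)
    T (fun u hu ↦ hT u (le_trans (Nat.le_mul_of_pos_left T (Nat.succ_pos N)) hu)) s₀ s'
  have e : L s₀ * (p : Ω) ^ T = -∑ s, L s * (imp p N α ((N + 1) * T + s₀.1) s
      - if s = s₀ then (p : Ω) ^ T else 0) := by
    simp only [mul_sub, sum_sub_distrib, mul_ite, mul_zero, sum_ite_eq', mem_univ, if_true]
    simp only [hlam] at h0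
    rw [h0]; ring
  have h2 : ‖L s₀‖ * ‖(p : Ω)‖ ^ T ≤ ‖L s₀‖ * (1 / 2 * ‖(p : Ω)‖ ^ T) := by
    rw [← norm_pow, ← norm_mul, e, norm_neg]
    refine IsUltrametricDist.norm_sum_le_of_forall_le_of_nonneg (by positivity) fun s _ ↦ ?_
    rw [norm_mul, norm_pow]
    exact mul_le_mul (hs₀ s (mem_univ _)) (hb s) (norm_nonneg _) (norm_nonneg _)
  have h3 : ‖L s₀‖ = 0 := by
    have := pow_pos S.pos T
    nlinarith [norm_nonneg (L s₀)]
  funext s
  exact norm_le_zero_iff.mp ((hs₀ s (mem_univ _)).trans h3.le)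

end Vale.Agent.P217.CharZero
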