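import Vale.Agent.P217.CharZero.Lift
import Vale.Agent.P217.Radical
import Vale.Agent.P217.LT
import Mathlib.LinearAlgebra.Matrix.NonsingularInverse

/-!
The moves pair trivially with the gradient of a member of the ideal at a point of the ideal.
-/

noncomputable section

open Filter MvPowerSeries Matrix
open scoped MvPowerSeries.WithPiTopology Topology

namespace Vale.Agent.P217.CharZero

variable {p N : ℕ} [hp : Fact p.Prime]
  {Ω : Type} [NontriviallyNormedField Ω] [IsUltrametricDist Ω] [CompleteSpace Ω] [CharZero Ω]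

omit [IsUltrametricDist Ω] [CompleteSpace Ω] [CharZero Ω] in
/-- The weight of a shift. -/
def wt (p N : ℕ) (i s : Fin (N + 1)) : Ω := if i ≤ s then 1 else (p : Ω)

omit [IsUltrametricDist Ω] [CompleteSpace Ω] [CharZero Ω] in
theorem norm_sum_mul_le {ι : Type*} [Fintype ι] (v L : ι → Ω) {B : ℝ} (hB : ∀ s, ‖v s‖ ≤ B)
    (_hB0 : 0 ≤ B) : ‖∑ s, v s * L s‖ ≤ B * ∑ s, ‖L s‖ := by
  refine (norm_sum_le _ _).trans ?_
  rw [Finset.mul_sum]
  exact Finset.sum_le_sum fun s _ ↦ by
    rw [norm_mul]; exact mul_le_mul_of_nonneg_right (hB s) (norm_nonneg _)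

omit [CompleteSpace Ω] in
theorem iota_injective {n : ℕ} (ι : WittVector p (GaloisField p n) →+* intRing Ω) :
    Function.Injective ι := by
  rw [injective_iff_map_eq_zero]
  intro x hx
  by_contra h0
  obtain ⟨m, b, rfl⟩ := WittVector.exists_eq_pow_p_mul' x h0
  rw [map_mul, map_pow, map_natCast] at hx
  have hp0 : (p : intRing Ω) ≠ 0 := fun h ↦ (Nat.cast_ne_zero (R := Ω)).mpr hp.out.ne_zero
    (by simpa using congrArg (Subtype.val) h)
  exact (mul_ne_zero (pow_ne_zero _ hp0) (b.isUnit.map ι).ne_zero) hx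

/-- The characters of the group of scalars of the moves. -/
def scalarChar (ι : WittVector p (GaloisField p (N + 1)) →+* intRing Ω) (t : Fin (N + 1)) :
    (GaloisField p (N + 1))ˣ →* Ω :=
  (powMonoidHom (p ^ t.1)).comp (((intRing Ω).subtype.toMonoidHom.comp
    (ι.toMonoidHom.comp (WittVector.teichmuller p))).comp (Units.coeHom _))

omit [CompleteSpace Ω] [CharZero Ω] in
theorem scalarChar_apply (ι : WittVector p (GaloisField p (N + 1)) →+* intRing Ω) (t : Fin (N + 1))
    (c : (GaloisField p (N + 1))ˣ) : scalarChar ι t c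
      = ((ι (WittVector.teichmuller p (c : GaloisField p (N + 1))) : intRing Ω) : Ω) ^ p ^ t.1 :=
  rfl

omit [CompleteSpace Ω] in
theorem scalarChar_injective (ι : WittVector p (GaloisField p (N + 1)) →+* intRing Ω) :
    Function.Injective (scalarChar ι) := by
  intro t t' h
  rcases Nat.eq_zero_or_pos N with rfl | hN
  · exact Fin.ext (by have := t.2; have := t'.2; omega)
  have : Finite (GaloisField p (N + 1)) := inferInstance
  obtain ⟨g, hg⟩ := IsCyclic.exists_generator (α := (GaloisField p (N + 1))ˣ)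
  have hcard : orderOf g = p ^ (N + 1) - 1 := by
    rw [orderOf_eq_card_of_forall_mem_zpowers hg, Nat.card_units,
      GaloisField.card p (N + 1) (Nat.succ_ne_zero N)]
  have hlt : ∀ s : Fin (N + 1), p ^ s.1 < orderOf g := by
    intro s
    have h1 : p ^ s.1 ≤ p ^ N := Nat.pow_le_pow_right hp.out.pos (Nat.lt_succ_iff.mp s.2)
    have h2 : 2 ≤ p ^ N := le_trans hp.out.two_le (Nat.le_self_pow hN.ne' p)
    have h3 : 2 * p ^ N ≤ p ^ (N + 1) := by
      rw [pow_succ']; exact Nat.mul_le_mul_right _ hp.out.two_le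
    omega
  have e := DFunLike.congr_fun h g
  rw [scalarChar_apply, scalarChar_apply, ← SubmonoidClass.coe_pow, ← SubmonoidClass.coe_pow,
    ← map_pow, ← map_pow, ← map_pow, ← map_pow] at e
  have e1 := congrArg WittVector.constantCoeff (iota_injective ι (Subtype.ext e))
  simp only [WittVector.constantCoeff_apply, WittVector.teichmuller_coeff_zero] at e1
  have e2 : g ^ p ^ t.1 = g ^ p ^ t'.1 := Units.ext (by simpa using e1)
  exact Fin.ext (Nat.pow_right_injective hp.out.two_le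
    (pow_injOn_Iio_orderOf (hlt t) (hlt t') e2))

/-- The pairing of the moves with a gradient vanishes at a point of the ideal. -/
theorem pairing_eq_zero {r : ℝ} (S : Setup Ω p r) (hp' : ‖(p : Ω)‖ ≤ r)
    (ι : WittVector p (GaloisField p (N + 1)) →+* intRing Ω)
    {a : Fin (N + 1 - 1) → intRing Ω} (ha : ∀ j, ‖(a j : Ω)‖ ≤ r) (hsa : IsSmall a)
    {P : Ideal (LTRing p (N + 1))} (hP : MovesInto p (N + 1) P)
    (hvan : ∀ f ∈ P, chi ι hsa f = 0) {f : LTRing p (N + 1)} (hf : f ∈ P)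
    {W : Matrix (Fin (N + 1)) (Fin (N + 1)) Ω} (hW : ∀ i s, W i s = wcol p N (vec a) i s)
    (hWu : IsUnit W.det) (L : Fin (N + 1) → Ω)
    (hL : W *ᵥ L = Fin.cases 0 fun j : Fin N ↦
      ((ev (pderiv (intRing Ω) (j : Fin (N + 1 - 1)) (MvPowerSeries.map ι f)) a : intRing Ω) : Ω))
    (c : GaloisField p (N + 1)) (i : Fin (N + 1)) :
    ∑ s, shiftVec p N (vec a) ((ι (WittVector.teichmuller p c) : intRing Ω) : Ω) i s * L s = 0 := by
  classical
  set α := vec a
  set C₀ : Ω := ((ι (WittVector.teichmuller p c) : intRing Ω) : Ω)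
  obtain ⟨K, hK0, hK⟩ := exists_taylor S N
  set Q : ℝ := ∑ x : Fin (N + 1) × Fin (N + 1), ‖W⁻¹ x.1 x.2‖
  have hQ0 : 0 ≤ Q := Finset.sum_nonneg fun _ _ ↦ norm_nonneg _
  obtain ⟨R, hR⟩ := exists_pow_lt_of_lt_one (x := (1 / ((N + 1) * Q * K + 1) : ℝ))
    (by positivity) S.r_lt
  obtain ⟨K₁, hK₁⟩ := lift_continuity (p := p) (Nat.succ_ne_zero N) R
  obtain ⟨M₀, hM₀⟩ := hP
  have hc : c ^ p ^ (N + 1) = c := by
    have : Fintype (GaloisField p (N + 1)) := Fintype.ofFinite _
    rw [← GaloisField.card p (N + 1) (Nat.succ_ne_zero N), Nat.card_eq_fintype_card,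
      FiniteField.pow_card]
  set δ : PowerSeries (GaloisField p (N + 1)) := PowerSeries.C c * PowerSeries.X ^ p ^ i.1
  have hδ := honda_endo (p := p) (R := GaloisField p (N + 1)) (Nat.succ_ne_zero N) hc i.1
  set Λ : ℝ := ∑ s, ‖L s‖
  have hΛ : 0 ≤ Λ := Finset.sum_nonneg fun _ _ ↦ norm_nonneg _
  set U : ℝ := (N + 1) * Q * K
  have hU : 0 ≤ U := by positivity
  set Z := ∑ s, shiftVec p N α C₀ i s * L s
  have hC : ‖C₀‖ ≤ 1 := mem_intRing.mp (Subtype.prop _)
  have hαr : ∀ j, ‖α j‖ ≤ r := fun j ↦ ha j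
  have key : ∀ M, M₀ ≤ M → K₁ ≤ M → M ≠ 0 →
      ‖Z‖ ≤ ((1 + K * Λ) * U ^ 2 + K * U * Λ) * ‖(p : Ω)‖ ^ M := by
    intro M hM1 hM2 hM0
    obtain ⟨φ, hφ, θ, hθ, hres⟩ := lift_exists (Nat.succ_ne_zero N) _
      (gSeries_isFGIso (Nat.succ_ne_zero N) hδ hM0)
    have hcong := hK₁ φ hφ θ hθ fun m hm ↦ by
      rw [hres]
      refine coeff_gSeries_low hδ.1 ?_
      have h1 : M ≤ (p ^ (N + 1)) ^ M :=
        (Nat.lt_pow_self (Nat.one_lt_pow (Nat.succ_ne_zero N) hp.out.one_lt)).le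
      omega
    set b : Fin (N + 1 - 1) → intRing Ω := fun j ↦ chi ι hsa (φ (MvPowerSeries.X j))
    have hbr : ∀ j, ‖(b j : Ω)‖ ≤ r := fun j ↦ norm_chi_le ι hsa S.r_nonneg S.r_lt hp' ha (by
      rw [resLT_auto hφ, resLT_X])
    have hsb : IsSmall b := fun j ↦
      isTopologicallyNilpotent_intRing.mpr ((hbr j).trans_lt S.r_lt)
    set β := vec b
    obtain ⟨lam, hlam⟩ := lift_equation S hp' ι ha hsa hc i hφ hθ hres
    set D : Fin N → Ω := fun j ↦ β j - α j
    set ε := ‖D‖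
    have hε0 : 0 ≤ ε := norm_nonneg _
    have hεR : ε ≤ r ^ R := by
      refine (pi_norm_le_iff_of_nonneg (pow_nonneg S.r_nonneg R)).mpr fun j ↦ ?_
      have h := norm_chi_pow_le ι hsa S.r_nonneg S.r_lt hp' ha R _ (hcong j)
      rw [map_sub, AddSubgroupClass.coe_sub, chi_apply ι hsa (MvPowerSeries.X _), map_X, ev_X] at h
      exact h
    have hUε : U * ε < 1 ∧ ε < 1 := by
      have h1 : ε < 1 / (U + 1) := hεR.trans_lt hR
      rw [lt_div_iff₀ (by linarith)] at h1
      constructor <;> nlinarith [mul_nonneg hU hε0]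
    have hDε : ∀ j, ‖β j - α j‖ ≤ ε := fun j ↦ norm_le_pi_norm D j
    have ht := hK α β hαr (fun j ↦ hbr j) ε hε0 hUε.2.le hDε
    set w := imp p N β 0
    set wa := imp p N α 0
    set v : Fin (N + 1) → Ω := fun s ↦ (w s - wa s - ∑ j : Fin N, D j * wcol p N α j.succ s)
      + (p : Ω) ^ M * shiftVec p N β C₀ i s
    set μ : Fin (N + 1) → Ω := Fin.cases (lam - 1) fun j ↦ - D j
    have hμ : μ ᵥ* W = v := by
      funext s
      have e : wcol p N α 0 s = wa s := rfl
      simp only [vecMul, dotProduct, hW, Fin.sum_univ_succ, μ, Fin.cases_zero, Fin.cases_succ, v,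
        neg_mul, Finset.sum_neg_distrib, e]
      linear_combination -(hlam s)
    set q := ‖(p : Ω)‖ ^ M
    have hq0 : 0 ≤ q := by positivity
    have hwt : ∀ s, ‖(if i ≤ s then (1 : Ω) else (p : Ω))‖ ≤ 1 := fun s ↦ by
      split_ifs
      · rw [norm_one]
      · exact S.small.le
    have hsh : ∀ s, ‖shiftVec p N β C₀ i s‖ ≤ K := fun s ↦ by
      rw [shiftVec, norm_mul, norm_pow, norm_mul]
      calc ‖C₀‖ ^ p ^ (s - i).1 * (‖(if i ≤ s then (1 : Ω) else (p : Ω))‖ * ‖imp p N β 0 (s - i)‖)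
          ≤ 1 * (1 * K) := mul_le_mul (pow_le_one₀ (norm_nonneg _) hC)
            (mul_le_mul (hwt s) (ht _).1 (norm_nonneg _) zero_le_one) (by positivity) zero_le_one
        _ = K := by ring
    have hv : ∀ s, ‖v s‖ ≤ K * max (ε ^ 2) q := fun s ↦ by
      refine norm_add_le_of_le ((ht s).2.2.trans (mul_le_mul_of_nonneg_left (le_max_left _ _) hK0)) ?_
      rw [norm_mul, norm_pow]
      calc ‖(p : Ω)‖ ^ M * ‖shiftVec p N β C₀ i s‖ ≤ q * K := mul_le_mul_of_nonneg_left (hsh s) hq0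
        _ ≤ K * max (ε ^ 2) q := by rw [mul_comm]; gcongr; exact le_max_right _ _
    have hεq : ε ≤ U * q := by
      have h1 : ε ≤ U * max (ε ^ 2) q := by
        refine (pi_norm_le_iff_of_nonneg (by positivity)).mpr fun j ↦ ?_
        have hμ' : μ = v ᵥ* W⁻¹ := by
          rw [← hμ, vecMul_vecMul, mul_nonsing_inv W hWu, vecMul_one]
        have hj : ‖D j‖ = ‖(v ᵥ* W⁻¹) j.succ‖ := by
          rw [← hμ']; simp [μ]
        rw [hj]
        refine (norm_sum_mul_le v (fun s ↦ W⁻¹ s j.succ) hv (by positivity)).trans ?_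
        have h2 : ∑ s, ‖W⁻¹ s j.succ‖ ≤ (N + 1) * Q := by
          refine (Finset.sum_le_card_nsmul _ _ Q fun s _ ↦ ?_).trans (le_of_eq ?_)
          · exact Finset.single_le_sum (f := fun x : Fin (N + 1) × Fin (N + 1) ↦ ‖W⁻¹ x.1 x.2‖)
              (fun _ _ ↦ norm_nonneg _) (Finset.mem_univ (s, j.succ))
          · simp
        calc K * max (ε ^ 2) q * ∑ s, ‖W⁻¹ s j.succ‖
            ≤ K * max (ε ^ 2) q * ((N + 1) * Q) := mul_le_mul_of_nonneg_left h2 (by positivity)
          _ = U * max (ε ^ 2) q := by ring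
      rcases le_total (ε ^ 2) q with h | h
      · rwa [max_eq_right h] at h1
      · rw [max_eq_left h] at h1
        have : ε * (1 - U * ε) ≤ 0 := by nlinarith
        have hε : ε = 0 := by nlinarith [hUε.1]
        rw [hε]; positivity
    -- first order expansion of the member of the ideal
    have hF := norm_ev_taylor_le (a := a) (b := b) S.r_lt ha hbr hε0 hUε.2
      (fun j ↦ hDε j) (MvPowerSeries.map ι f)
    have hb0 : ev (MvPowerSeries.map ι f) b = 0 := by
      rw [← chi_apply ι hsb, ← chi_auto ι hφ hsa hsb]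
      exact hvan _ (hM₀ M hM1 δ hδ φ hφ θ hθ hres f hf)
    have ha0 : ev (MvPowerSeries.map ι f) a = 0 := by rw [← chi_apply ι hsa]; exact hvan f hf
    rw [hb0, ha0, ZeroMemClass.coe_zero, sub_zero, zero_sub, norm_neg] at hF
    have hvL : ‖∑ s, v s * L s‖ ≤ ε ^ 2 := by
      refine le_trans (le_of_eq ?_) hF
      rw [show ∑ s, v s * L s = v ⬝ᵥ L from rfl, ← hμ, ← dotProduct_mulVec, hL, dotProduct,
        Fin.sum_univ_succ, Fin.cases_zero, mul_zero, zero_add]
      simp only [μ, Fin.cases_succ, neg_mul, Finset.sum_neg_distrib, norm_neg]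
      rfl
    have hsL : q * ‖∑ s, shiftVec p N β C₀ i s * L s‖ ≤ ε ^ 2 * (1 + K * Λ) := by
      rw [show q = ‖(p : Ω) ^ M‖ from (norm_pow _ _).symm, ← norm_mul, Finset.mul_sum]
      have e : ∑ s, (p : Ω) ^ M * (shiftVec p N β C₀ i s * L s) = ∑ s, v s * L s
          - ∑ s, (w s - wa s - ∑ j : Fin N, D j * wcol p N α j.succ s) * L s := by
        rw [← Finset.sum_sub_distrib]
        exact Finset.sum_congr rfl fun s _ ↦ by simp only [v]; ring
      rw [e]
      refine (norm_sub_le _ _).trans ?_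
      have h2 := norm_sum_mul_le _ L (fun s ↦ (ht s).2.2) (by positivity)
      nlinarith
    have hqp : 0 < q := pow_pos S.pos M
    have hsL' : ‖∑ s, shiftVec p N β C₀ i s * L s‖ ≤ (1 + K * Λ) * U ^ 2 * q := by
      have h1 : ε ^ 2 ≤ (U * q) ^ 2 := pow_le_pow_left₀ hε0 hεq 2
      refine le_of_mul_le_mul_left (hsL.trans ?_) hqp
      calc ε ^ 2 * (1 + K * Λ) ≤ (U * q) ^ 2 * (1 + K * Λ) :=
            mul_le_mul_of_nonneg_right h1 (by positivity)
        _ = q * ((1 + K * Λ) * U ^ 2 * q) := by ring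
    have hdiff : ‖Z - ∑ s, shiftVec p N β C₀ i s * L s‖ ≤ K * ε * Λ := by
      simp only [Z, ← Finset.sum_sub_distrib, ← sub_mul]
      refine norm_sum_mul_le _ L (fun s ↦ ?_) (by positivity)
      rw [norm_sub_rev, shiftVec, shiftVec, ← mul_sub, ← mul_sub, norm_mul, norm_pow, norm_mul]
      calc _ ≤ 1 * (1 * (K * ε)) := mul_le_mul (pow_le_one₀ (norm_nonneg _) hC)
            (mul_le_mul (hwt s) (ht _).2.1 (norm_nonneg _) zero_le_one) (by positivity) zero_le_one
        _ = K * ε := by ring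
    calc ‖Z‖ ≤ ‖∑ s, shiftVec p N β C₀ i s * L s‖ + ‖Z - ∑ s, shiftVec p N β C₀ i s * L s‖ :=
          (le_of_eq (by rw [add_sub_cancel])).trans (norm_add_le _ _)
      _ ≤ (1 + K * Λ) * U ^ 2 * q + K * (U * q) * Λ := add_le_add hsL' (hdiff.trans (by gcongr))
      _ = _ := by ring
  have hlim : Tendsto (fun M ↦ ((1 + K * Λ) * U ^ 2 + K * U * Λ) * ‖(p : Ω)‖ ^ M) atTop (𝓝 0) := by
    simpa using (tendsto_pow_atTop_nhds_zero_of_lt_one (norm_nonneg _) S.small).const_mul
      ((1 + K * Λ) * U ^ 2 + K * U * Λ)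
  exact norm_le_zero_iff.mp (ge_of_tendsto hlim (eventually_atTop.mpr ⟨M₀ + K₁ + 1, fun M hM ↦
    key M (by omega) (by omega) (by omega)⟩))

/-- The ideal is closed under the derivations, at a point. -/
theorem ev_pderiv_eq_zero {r : ℝ} (S : Setup Ω p r) (hp' : ‖(p : Ω)‖ ≤ r)
    (ι : WittVector p (GaloisField p (N + 1)) →+* intRing Ω)
    {a : Fin (N + 1 - 1) → intRing Ω} (ha : ∀ j, ‖(a j : Ω)‖ ≤ r) (hsa : IsSmall a)
    {P : Ideal (LTRing p (N + 1))} (hP : MovesInto p (N + 1) P)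
    (hvan : ∀ f ∈ P, chi ι hsa f = 0) {f : LTRing p (N + 1)} (hf : f ∈ P)
    (j : Fin (N + 1 - 1)) : ev (pderiv (intRing Ω) j (MvPowerSeries.map ι f)) a = 0 := by
  classical
  have hαr : ∀ j, ‖vec a j‖ ≤ r := fun j ↦ ha j
  set W : Matrix (Fin (N + 1)) (Fin (N + 1)) Ω := Matrix.of fun i s ↦ wcol p N (vec a) i s
  have hinj : Function.Injective W.mulVec := by
    intro x y h
    refine sub_eq_zero.mp (wcol_injective S hαr (x - y) fun i ↦ ?_)
    have h' := congrFun h i
    simp only [mulVec, dotProduct] at h'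
    simp only [Pi.sub_apply, sub_mul, Finset.sum_sub_distrib, sub_eq_zero]
    simpa [W, mul_comm] using h'
  have hWu : IsUnit W.det := (isUnit_iff_isUnit_det W).mp (mulVec_injective_iff_isUnit.mp hinj)
  set g : Fin (N + 1) → Ω := Fin.cases 0 fun j : Fin N ↦
    ((ev (pderiv (intRing Ω) (j : Fin (N + 1 - 1)) (MvPowerSeries.map ι f)) a : intRing Ω) : Ω)
    with hg
  set L := W⁻¹ *ᵥ g
  have hL : W *ᵥ L = g := by rw [mulVec_mulVec, mul_nonsing_inv W hWu, one_mulVec]
  obtain ⟨t₀, ht₀⟩ : ∃ t, imp p N (vec a) 0 t ≠ 0 := by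
    by_contra h
    push Not at h
    exact hWu.ne_zero (det_eq_zero_of_row_eq_zero 0 fun s ↦ h s)
  have hL0 : L = 0 := by
    funext s
    set i := s - t₀
    have hsum : ∑ t, (wt p N i (t + i) * imp p N (vec a) 0 t * L (t + i)) •
        (scalarChar ι t : (GaloisField p (N + 1))ˣ → Ω) = 0 := by
      funext c
      rw [Finset.sum_apply, Pi.zero_apply,
        ← pairing_eq_zero S hp' ι ha hsa hP hvan hf (W := W) (fun _ _ ↦ rfl) hWu L hL
          (c : GaloisField p (N + 1)) i]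
      refine Fintype.sum_equiv (Equiv.addRight i) _ _ fun t ↦ ?_
      rw [Pi.smul_apply, smul_eq_mul, scalarChar_apply, Equiv.coe_addRight, shiftVec,
        add_sub_cancel_right, wt]
      ring
    have hcoef := Fintype.linearIndependent_iff.mp ((linearIndependent_monoidHom _ Ω).comp _
      (scalarChar_injective ι)) _ hsum t₀
    rw [show t₀ + i = s from add_sub_cancel t₀ s] at hcoef
    have hwt : (wt p N i s : Ω) ≠ 0 := by
      unfold wt
      split_ifs
      · exact one_ne_zero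
      · exact S.ne_zero
    exact (mul_eq_zero.mp hcoef).resolve_left (mul_ne_zero hwt ht₀)
  have hj := congrFun hL (Fin.succ (j : Fin N))
  rw [hL0, mulVec_zero, Pi.zero_apply, hg] at hj
  simp only [Fin.cases_succ] at hj
  exact Subtype.ext hj.symm

end Vale.Agent.P217.CharZero
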