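import Vale.Agent.P217.CharZero.Point
import Vale.Agent.P217.CharZero.Indep
import Vale.Agent.P217.Heights

/-!
The equation satisfied by the limit vectors at a point and at its image under a lift of
`X +_Γ [p^M] c X^(p^i)`.
-/

noncomputable section

open Filter MvPowerSeries
open scoped MvPowerSeries.WithPiTopology Topology

namespace Vale.Agent.P217.CharZero

variable {p N : ℕ} [hp : Fact p.Prime]

theorem mulSeries_pow_succ (n M : ℕ) : Haz.mulSeries p n ((p : ℤ) ^ (M + 1)) =
    PowerSeries.subst (Haz.mulSeries p n ((p : ℤ) ^ M)) (Haz.mulSeries p n (p : ℤ)) := by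
  set G := Haz.mulSeries p n ((p : ℤ) ^ M)
  set H := Haz.mulSeries p n (p : ℤ)
  have hG : constantCoeff G = 0 := Haz.constantCoeff_mulSeries p n _
  have hH : PowerSeries.constantCoeff H = 0 := Haz.constantCoeff_mulSeries p n _
  have hG' : constantCoeff (MvPowerSeries.map (algebraMap (Haz.A n) (Haz.K n)) G) = 0 :=
    Haz.constantCoeff_mapK n hG
  refine Haz.logOf_injective p n (Haz.constantCoeff_mulSeries p n _)
    (constantCoeff_ps_subst hG hH) ?_
  have e : Haz.logOf p n (PowerSeries.subst G H)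
      = PowerSeries.subst (MvPowerSeries.map (algebraMap (Haz.A n) (Haz.K n)) G)
          (Haz.logOf p n H) := by
    rw [Haz.logOf, Haz.logOf, ps_subst_subst (Haz.constantCoeff_mapK n hH) hG']
    congr 1
    exact PowerSeries.map_subst (PowerSeries.HasSubst.of_constantCoeff_zero hG) _
  rw [e, Haz.logOf_mulSeries p n (p : ℤ), Haz.logOf_mulSeries p n _]
  have hX : Haz.logOf p n (MvPowerSeries.X () : MvPowerSeries Unit (Haz.A n))
      = (Haz.setting p n).L := by
    rw [Haz.logOf, MvPowerSeries.map_X]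
    exact PowerSeries.X_subst _
  have hG2 : PowerSeries.subst (MvPowerSeries.map (algebraMap (Haz.A n) (Haz.K n)) G)
      (Haz.setting p n).L = ((p : ℤ) ^ M) • (Haz.setting p n).L := by
    have := Haz.logOf_mulSeries p n ((p : ℤ) ^ M)
    rwa [hX, Haz.logOf] at this
  rw [hX, zsmul_eq_mul ((Haz.setting p n).L) (p : ℤ),
    PowerSeries.subst_mul (PowerSeries.HasSubst.of_constantCoeff_zero hG'), hG2,
    ← PowerSeries.coe_substAlgHom (PowerSeries.HasSubst.of_constantCoeff_zero hG'), map_intCast,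
    pow_succ, zsmul_eq_mul, zsmul_eq_mul, Int.cast_mul]
  ring

theorem resLT_comp_toLT (n : ℕ) :
    (resLT p n).comp (toLT p n) = zeroSpec n (GaloisField p n) := by
  apply MvPolynomial.ringHom_ext <;> intro <;> simp [toLT, zeroSpec, resLT_X]

/-- Multiplication by `p^M` on Honda's law over the residue field. -/
theorem honda_pow (n : ℕ) (hn : n ≠ 0) (M : ℕ) :
    MvPowerSeries.map (zeroSpec n (GaloisField p n)) (Haz.mulSeries p n ((p : ℤ) ^ M))
      = (PowerSeries.X : PowerSeries (GaloisField p n)) ^ (p ^ n) ^ M := by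
  induction M with
  | zero => rw [pow_zero, pow_zero, pow_one, Haz.mulSeries_one, map_X]; rfl
  | succ M ih =>
    have hG : constantCoeff (MvPowerSeries.map (zeroSpec n (GaloisField p n))
        (Haz.mulSeries p n ((p : ℤ) ^ M))) = 0 := by simp [Haz.constantCoeff_mulSeries]
    have hs := PowerSeries.HasSubst.of_constantCoeff_zero hG
    rw [mulSeries_pow_succ]
    refine Eq.trans (PowerSeries.map_subst
      (PowerSeries.HasSubst.of_constantCoeff_zero (Haz.constantCoeff_mulSeries p n _)) _) ?_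
    show PowerSeries.subst _ (MvPowerSeries.map (zeroSpec n (GaloisField p n))
      (Haz.mulSeries p n (p : ℤ)) : PowerSeries (GaloisField p n)) = _
    rw [honda_p (CharP.cast_eq_zero _ p) hn,
      show (MvPowerSeries.X () ^ p ^ n : MvPowerSeries Unit (GaloisField p n))
        = (PowerSeries.X : PowerSeries (GaloisField p n)) ^ p ^ n from rfl,
      PowerSeries.subst_pow hs, PowerSeries.subst_X hs, ih, ← pow_mul, ← pow_succ]

/-- A lift of `X +_Γ [p^M] (c X^(p^i))`. -/
def gLift (p n : ℕ) [Fact p.Prime] (c : GaloisField p n) (i M : ℕ) : PowerSeries (LTRing p n) :=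
  MvPowerSeries.subst
    ![(PowerSeries.X : PowerSeries (LTRing p n)),
      PowerSeries.subst (PowerSeries.C (MvPowerSeries.C (WittVector.teichmuller p c))
        * PowerSeries.X ^ p ^ i) (MvPowerSeries.map (toLT p n) (Haz.mulSeries p n ((p : ℤ) ^ M)))]
    (lawLT p n).toPowerSeries

theorem ps_coeff_eq {R : Type*} [CommRing R] (k : ℕ) (f : PowerSeries R) :
    PowerSeries.coeff k f = MvPowerSeries.coeff (Finsupp.single () k) f := rfl

theorem constantCoeff_mon {R : Type*} [CommRing R] (c : R) (i : ℕ) :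
    MvPowerSeries.constantCoeff (PowerSeries.C c * PowerSeries.X ^ p ^ i : PowerSeries R) = 0 := by
  show PowerSeries.constantCoeff (PowerSeries.C c * PowerSeries.X ^ p ^ i) = 0
  rw [map_mul, map_pow, PowerSeries.constantCoeff_X, zero_pow (pow_ne_zero _ hp.out.ne_zero),
    mul_zero]

theorem constantCoeff_inner {n : ℕ} {R : Type*} [CommRing R] (ψ : Haz.A n →+* R) (c : R) (i M : ℕ) :
    MvPowerSeries.constantCoeff (PowerSeries.subst (PowerSeries.C c * PowerSeries.X ^ p ^ i)
      (MvPowerSeries.map ψ (Haz.mulSeries p n ((p : ℤ) ^ M))) : PowerSeries R) = 0 :=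
  constantCoeff_ps_subst (constantCoeff_mon c i) (by
    show MvPowerSeries.constantCoeff _ = 0
    simp [Haz.constantCoeff_mulSeries])

theorem map_gLift {n : ℕ} {R : Type} [CommRing R] (χ : LTRing p n →+* R) (c : GaloisField p n)
    (i M : ℕ) : PowerSeries.map χ (gLift p n c i M) = MvPowerSeries.subst
      ![(PowerSeries.X : PowerSeries R),
        PowerSeries.subst (PowerSeries.C (χ (MvPowerSeries.C (WittVector.teichmuller p c)))
          * PowerSeries.X ^ p ^ i)
          (MvPowerSeries.map (χ.comp (toLT p n)) (Haz.mulSeries p n ((p : ℤ) ^ M)))]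
      ((Haz.law p n).map (χ.comp (toLT p n))).toPowerSeries := by
  rw [gLift, FormalGroup.map_toPowerSeries, lawLT, FormalGroup.map_toPowerSeries]
  show MvPowerSeries.map χ _ = _
  rw [MvPowerSeries.map_subst (hasSubst_of_constantCoeff_zero
    (Haz.constantCoeff_pair PowerSeries.constantCoeff_X (constantCoeff_inner _ _ i M))),
    MvPowerSeries.map_map]
  congr 1
  funext k
  fin_cases k
  · exact PowerSeries.map_X χ
  · simp only [Fin.mk_one, Matrix.cons_val_one, Matrix.cons_val_fin_one]
    refine Eq.trans (PowerSeries.map_subst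
      (PowerSeries.HasSubst.of_constantCoeff_zero (constantCoeff_mon _ i)) _) ?_
    show PowerSeries.subst (PowerSeries.map χ _) (MvPowerSeries.map χ _ : PowerSeries R) = _
    rw [MvPowerSeries.map_map, map_mul, map_pow, PowerSeries.map_C, PowerSeries.map_X]

theorem map_res_gLift {n : ℕ} (hn : n ≠ 0) (c : GaloisField p n) (i M : ℕ) :
    PowerSeries.map (resLT p n) (gLift p n c i M)
      = gSeries p n (PowerSeries.C c * PowerSeries.X ^ p ^ i) M := by
  rw [map_gLift, resLT_comp_toLT, honda_pow n hn,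
    show resLT p n (MvPowerSeries.C (WittVector.teichmuller p c)) = c by simp [resLT],
    PowerSeries.subst_pow (PowerSeries.HasSubst.of_constantCoeff_zero (constantCoeff_mon _ i)),
    PowerSeries.subst_X (PowerSeries.HasSubst.of_constantCoeff_zero (constantCoeff_mon _ i))]
  rfl

variable {Ω : Type} [NontriviallyNormedField Ω] [IsUltrametricDist Ω] [CompleteSpace Ω] [CharZero Ω]

/-- The parameter map over the field at a point. -/
def pointF {n : ℕ} (a : Fin (n - 1) → intRing Ω) : Haz.A n →+* Ω :=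
  (intRing Ω).subtype.comp (pointHom a)

/-- The point as a vector in the field. -/
def vec (a : Fin (N + 1 - 1) → intRing Ω) : Fin N → Ω := fun j ↦ (a j : Ω)

omit [CompleteSpace Ω] [CharZero Ω] in
theorem pointF_uA (a : Fin (N + 1 - 1) → intRing Ω) (k : ℕ) :
    pointF a (Haz.uA (N + 1) (k + 1))
      = if h : k < N then vec a ⟨k, h⟩ else if k = N then 1 else 0 := by
  unfold Haz.uA
  by_cases h : k < N
  · rw [dif_pos ⟨Nat.succ_ne_zero k, by omega⟩, dif_pos h]
    simp [pointF, pointHom, vec]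
  · rw [dif_neg (fun h' ↦ h (by simpa using h'.2)), dif_neg h]
    by_cases hk : k = N
    · rw [if_pos (by omega), if_pos hk, map_one]
    · rw [if_neg (by omega), if_neg hk, map_zero]

omit [CompleteSpace Ω] in
theorem ellAt_eq_base (a : Fin (N + 1 - 1) → intRing Ω) :
    (fun m ↦ Haz.ellAt p (pointF a) m) = base p N (vec a) := by
  have hp0 : (p : Ω) ≠ 0 := Nat.cast_ne_zero.mpr hp.out.ne_zero
  refine sol_unique fun m ↦ ?_
  rcases m with _ | k
  · simp [Haz.ellAt_zero, delta, step]
  set f : ℕ → Ω := fun i ↦ Haz.ellAt p (pointF a) (k - i)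
    * pointF a (Haz.uA (N + 1) (i + 1)) ^ p ^ (k - i)
  set g : ℕ → Ω := fun i ↦ if i ≤ k then f i / (p : Ω) else 0
  have h1 : Haz.ellAt p (pointF a) (k + 1) = ∑ i ∈ Finset.range (k + 1), g i := by
    rw [show Haz.ellAt p (pointF a) (k + 1)
      = ((p : Ω) * Haz.ellAt p (pointF a) (k + 1)) / (p : Ω) from (mul_div_cancel_left₀ _ hp0).symm,
      Haz.ellAt_succ, Finset.sum_div]
    refine Finset.sum_congr rfl fun i hi ↦ ?_
    rw [Finset.mem_range] at hi
    simp only [g, f, if_pos (show i ≤ k by omega)]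
  have h2 : ∑ i ∈ Finset.range (k + 1), g i = ∑ i ∈ Finset.range (N + 1), g i := by
    rw [Finset.sum_subset (s₂ := Finset.range (k + 1 + (N + 1)))
      (Finset.range_subset_range.mpr (by omega)) fun i _ hi ↦ ?_]
    · refine (Finset.sum_subset (Finset.range_subset_range.mpr (by omega)) fun i _ hi ↦ ?_).symm
      rw [Finset.mem_range] at hi
      simp only [g, f]
      split_ifs
      · rw [pointF_uA, dif_neg (by omega), if_neg (by omega),
          zero_pow (pow_ne_zero _ hp.out.ne_zero), mul_zero, zero_div]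
      · rfl
    · rw [Finset.mem_range] at hi
      simp only [g, if_neg (show ¬ i ≤ k by omega)]
  rw [h1, h2, show delta 0 (k + 1) = (0 : Ω) by simp [delta], zero_add, Finset.sum_range_succ, step,
    ← Fin.sum_univ_eq_sum_range g N]
  congr 1
  · refine Finset.sum_congr rfl fun j _ ↦ ?_
    simp only [g, f]
    by_cases hj : j.1 ≤ k
    · rw [if_pos hj, if_pos (by omega), pointF_uA, dif_pos j.2,
        show k + 1 - (j.1 + 1) = k - j.1 by omega]
      ring
    · rw [if_neg hj, if_neg (by omega)]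
  · simp only [g, f]
    by_cases hj : N ≤ k
    · rw [if_pos hj, if_pos (by omega), pointF_uA, dif_neg (by omega), if_pos rfl, one_pow, mul_one,
        show k + 1 - (N + 1) = k - N by omega]
    · rw [if_neg hj, if_neg (by omega)]

/-- All coefficients have norm at most `c`. -/
def Bd (A : PowerSeries (intRing Ω)) (c : ℝ) : Prop :=
  ∀ d, ‖((PowerSeries.coeff d A : intRing Ω) : Ω)‖ ≤ c

omit [CompleteSpace Ω] [CharZero Ω] in
theorem Bd.one (A : PowerSeries (intRing Ω)) : Bd A 1 := fun _ ↦ mem_intRing.mp (Subtype.prop _)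

omit [CompleteSpace Ω] [CharZero Ω] in
theorem Bd.mul {A E : PowerSeries (intRing Ω)} {c e : ℝ} (hA : Bd A c) (hE : Bd E e) :
    Bd (A * E) (c * e) := fun d ↦ by
  have hc : 0 ≤ c := (norm_nonneg _).trans (hA 0)
  have he : 0 ≤ e := (norm_nonneg _).trans (hE 0)
  rw [PowerSeries.coeff_mul, AddSubmonoidClass.coe_finsetSum]
  refine IsUltrametricDist.norm_sum_le_of_forall_le_of_nonneg (by positivity) fun q _ ↦ ?_
  rw [MulMemClass.coe_mul, norm_mul]
  exact mul_le_mul (hA _) (hE _) (norm_nonneg _) hc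

omit [CompleteSpace Ω] [CharZero Ω] in
theorem Bd.pow {A B : PowerSeries (intRing Ω)} {r : ℝ} (hr0 : 0 ≤ r) (hr1 : r ≤ 1)
    (hp' : ‖(p : Ω)‖ ≤ r) (h : Bd (A - B) r) :
    ∀ k, Bd (A ^ p ^ k - B ^ p ^ k) (r ^ (k + 1)) := by
  intro k
  induction k with
  | zero => simpa using h
  | succ k ih =>
    set x := B ^ p ^ k
    set y := A ^ p ^ k - B ^ p ^ k
    obtain ⟨z, hz⟩ := exists_add_pow_prime_eq hp.out x y
    have e : A ^ p ^ (k + 1) - B ^ p ^ (k + 1) = y ^ p + (p : PowerSeries (intRing Ω)) * y * (x * z) := by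
      rw [pow_succ, pow_mul, pow_mul, show A ^ p ^ k = x + y by simp [x, y], hz]
      ring
    rw [e]
    intro d
    rw [map_add, AddMemClass.coe_add]
    have hy : Bd y r := fun d ↦ (ih d).trans (pow_le_of_le_one hr0 hr1 (Nat.succ_ne_zero k))
    refine norm_add_le_of_le ?_ ?_
    · obtain ⟨q, hq⟩ : ∃ q, p = q + 2 := ⟨p - 2, by have := hp.out.two_le; omega⟩
      have e2 : y ^ p = y ^ q * (y * y) := by rw [hq]; ring
      rw [e2, pow_succ]
      refine ((Bd.one _).mul (ih.mul hy) d).trans (le_of_eq ?_)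
      ring
    · have hpb : Bd (p : PowerSeries (intRing Ω)) r := fun d ↦ by
        rw [← map_natCast (PowerSeries.C (R := intRing Ω)), PowerSeries.coeff_C]
        split_ifs
        · rwa [SubringClass.coe_natCast]
        · simpa using hr0
      refine ((hpb.mul ih).mul (Bd.one _) d).trans (le_of_eq ?_)
      ring

omit [CompleteSpace Ω] [CharZero Ω] in
theorem coeff_pow_subtype (A : PowerSeries (intRing Ω)) (k d : ℕ) :
    PowerSeries.coeff d ((PowerSeries.map (intRing Ω).subtype A) ^ k)
      = ((PowerSeries.coeff d (A ^ k) : intRing Ω) : Ω) := by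
  rw [← map_pow, PowerSeries.coeff_map]
  rfl

omit [IsUltrametricDist Ω] [CompleteSpace Ω] in
/-- A series commuting with doubling and without linear term vanishes. -/
theorem eq_zero_of_double {D G : PowerSeries Ω} (hD0 : PowerSeries.constantCoeff D = 0)
    (hD1 : PowerSeries.coeff 1 D = 0) (hG0 : PowerSeries.constantCoeff G = 0)
    (hG1 : PowerSeries.coeff 1 G = 2) (h : PowerSeries.subst G D = (2 : PowerSeries Ω) * D) :
    D = 0 := by
  ext m
  rw [map_zero]
  induction m using Nat.strong_induction_on with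
  | _ m ih =>
    rcases m with _ | _ | m
    · rwa [PowerSeries.coeff_zero_eq_constantCoeff_apply]
    · exact hD1
    set M := m + 2
    have hs : PowerSeries.HasSubst G := PowerSeries.HasSubst.of_constantCoeff_zero' hG0
    have hc := congrArg (PowerSeries.coeff M) h
    rw [PowerSeries.coeff_subst' hs, finsum_eq_single _ M] at hc
    · obtain ⟨G', rfl⟩ := PowerSeries.X_dvd_iff.mpr hG0
      have hG' : PowerSeries.constantCoeff G' = 2 := by
        rw [← PowerSeries.coeff_zero_eq_constantCoeff_apply, ← hG1,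
          ← PowerSeries.coeff_succ_X_mul]
      rw [mul_pow, PowerSeries.coeff_X_pow_mul', if_pos le_rfl, Nat.sub_self,
        PowerSeries.coeff_zero_eq_constantCoeff_apply, map_pow, hG',
        show (2 : PowerSeries Ω) = PowerSeries.C 2 from (map_ofNat _ 2).symm,
        PowerSeries.coeff_C_mul, smul_eq_mul] at hc
      have h4 : (2 : Ω) ^ M ≠ 2 := by
        intro h5
        have h6 : ((2 ^ M : ℕ) : Ω) = ((2 : ℕ) : Ω) := by push_cast; exact h5
        have h7 := Nat.cast_injective h6
        have : 4 ≤ 2 ^ M := by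
          calc 4 = 2 ^ 2 := rfl
            _ ≤ 2 ^ M := Nat.pow_le_pow_right two_pos (by omega)
        omega
      have h8 : (PowerSeries.coeff M D) * ((2 : Ω) ^ M - 2) = 0 := by linear_combination hc
      exact (mul_eq_zero.mp h8).resolve_right (sub_ne_zero.mpr h4)
    · intro k hk
      rcases lt_or_gt_of_ne hk with hlt | hgt
      · rw [ih k hlt]; exact zero_smul _ _
      · have h0 : PowerSeries.coeff M (G ^ k) = 0 := PowerSeries.coeff_of_lt_order _ (lt_of_lt_of_le
          (by exact_mod_cast hgt) (PowerSeries.le_order_pow_of_constantCoeff_eq_zero k hG0))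
        rw [h0, smul_zero]

omit [IsUltrametricDist Ω] [CompleteSpace Ω] in
theorem coeff_one_two_series {n : ℕ} (ψ : Haz.A n →+* Ω) :
    PowerSeries.coeff 1 (MvPowerSeries.map ψ (Haz.mulSeries p n (2 : ℤ)) : PowerSeries Ω) = 2 := by
  set G : PowerSeries Ω := MvPowerSeries.map ψ (Haz.mulSeries p n (2 : ℤ))
  have hG : MvPowerSeries.constantCoeff G = 0 := by simp [G, Haz.constantCoeff_mulSeries]
  have h : PowerSeries.subst G (Haz.logAt p ψ) = (2 : ℤ) • Haz.logAt p ψ := Haz.logAt_mulSeries ψ 2
  have h1 : PowerSeries.coeff 1 (PowerSeries.subst G (Haz.logAt p ψ)) = PowerSeries.coeff 1 G := by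
    rw [ps_coeff_eq, FESetting.coeff_subst_eq_sum (p := p) _ (Haz.logAt_zero _)
      (Haz.coeff_logAt_ne _) hG (N := 1) (by simp), Finset.sum_range_succ, Finset.sum_range_one,
      pow_zero, pow_one, Haz.logAt_one, one_mul,
      FESetting.coeff_pow_eq_zero hG (by simpa using hp.out.one_lt), mul_zero, add_zero,
      ps_coeff_eq]
  rw [← h1, h, map_zsmul, Haz.logAt_one, zsmul_eq_mul, mul_one, Int.cast_ofNat]

omit [IsUltrametricDist Ω] [CompleteSpace Ω] in
/-- A homomorphism of specialised laws multiplies logarithms by its linear term. -/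
theorem log_comp_hom {n : ℕ} (ψ ψ' : Haz.A n →+* Ω) {H : PowerSeries Ω}
    (hH : IsFGHom ((Haz.law p n).map ψ) ((Haz.law p n).map ψ') H) :
    PowerSeries.subst H (Haz.logAt p ψ')
      = PowerSeries.C (PowerSeries.coeff 1 H) * Haz.logAt p ψ := by
  set L := Haz.logAt p ψ
  set L' := Haz.logAt p ψ'
  have hH0 : MvPowerSeries.constantCoeff H = 0 := hH.1
  set G : PowerSeries Ω := MvPowerSeries.map ψ (Haz.mulSeries p n (2 : ℤ))
  set G' : PowerSeries Ω := MvPowerSeries.map ψ' (Haz.mulSeries p n (2 : ℤ))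
  have hG0 : MvPowerSeries.constantCoeff G = 0 := by simp [G, Haz.constantCoeff_mulSeries]
  have hs := PowerSeries.HasSubst.of_constantCoeff_zero hG0
  have hc : PowerSeries.subst G H = PowerSeries.subst H G' := hom_mulSeries ψ ψ' hH 2
  have two : ∀ S : PowerSeries Ω, (2 : ℤ) • S = (2 : PowerSeries Ω) * S := fun S ↦ by
    rw [zsmul_eq_mul]; norm_num
  rw [← sub_eq_zero]
  refine eq_zero_of_double ?_ ?_ hG0 (coeff_one_two_series ψ) ?_
  · rw [map_sub, map_mul, Haz.logAt_zero, mul_zero, sub_zero]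
    exact constantCoeff_ps_subst hH0 (Haz.logAt_zero _)
  · rw [map_sub, PowerSeries.coeff_C_mul, Haz.logAt_one, mul_one, sub_eq_zero, ps_coeff_eq,
      FESetting.coeff_subst_eq_sum (p := p) _ (Haz.logAt_zero _) (Haz.coeff_logAt_ne _) hH0 (N := 1)
      (by simp), Finset.sum_range_succ, Finset.sum_range_one, pow_zero, pow_one, Haz.logAt_one,
      one_mul, FESetting.coeff_pow_eq_zero hH0 (by simpa using hp.out.one_lt), mul_zero, add_zero,
      ps_coeff_eq]
  · have e1 : PowerSeries.subst G (PowerSeries.subst H L')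
        = (2 : PowerSeries Ω) * PowerSeries.subst H L' := by
      rw [ps_subst_subst hH.1 hG0, hc,
        ← ps_subst_subst (show PowerSeries.constantCoeff G' = 0 from by
          show MvPowerSeries.constantCoeff G' = 0
          simp [G', Haz.constantCoeff_mulSeries]) hH0,
        show PowerSeries.subst G' L' = (2 : ℤ) • L' from Haz.logAt_mulSeries ψ' 2, two,
        PowerSeries.subst_mul (PowerSeries.HasSubst.of_constantCoeff_zero hH0),
        ← PowerSeries.coe_substAlgHom (PowerSeries.HasSubst.of_constantCoeff_zero hH0), map_ofNat]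
    have e2 : PowerSeries.subst G L = (2 : PowerSeries Ω) * L :=
      (Haz.logAt_mulSeries ψ 2).trans (two L)
    rw [← PowerSeries.coe_substAlgHom hs, map_sub, map_mul, PowerSeries.coe_substAlgHom hs, e1, e2,
      PowerSeries.subst_C, show (MvPowerSeries.C (PowerSeries.coeff 1 H) : PowerSeries Ω)
        = PowerSeries.C (PowerSeries.coeff 1 H) from rfl]
    ring

/-- The shifted limit vector. -/
def shiftVec (p N : ℕ) (β : Fin N → Ω) (C : Ω) (i s : Fin (N + 1)) : Ω :=
  C ^ p ^ (s - i).1 * ((if i ≤ s then 1 else (p : Ω)) * imp p N β 0 (s - i))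

/-- The equation of the limit vectors along a lift. -/
theorem lift_equation {r : ℝ} (S : Setup Ω p r) (hp' : ‖(p : Ω)‖ ≤ r)
    (ι : WittVector p (GaloisField p (N + 1)) →+* intRing Ω)
    {a : Fin (N + 1 - 1) → intRing Ω} (ha : ∀ j, ‖(a j : Ω)‖ ≤ r)
    (hsa : IsSmall a) {c : GaloisField p (N + 1)} (hc : c ^ p ^ (N + 1) = c) (i : Fin (N + 1))
    {M : ℕ} {φ : LTRing p (N + 1) ≃+* LTRing p (N + 1)}
    (hW : ∀ w, φ (MvPowerSeries.C w) = MvPowerSeries.C w) {θ : PowerSeries (LTRing p (N + 1))}
    (hθ : IsFGIso (lawLT p (N + 1)) ((lawLT p (N + 1)).map φ.toRingHom) θ)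
    (hres : θ.map (resLT p (N + 1))
      = gSeries p (N + 1) (PowerSeries.C c * PowerSeries.X ^ p ^ i.1) M) :
    ∃ lam : Ω, ∀ s, imp p N (vec fun j ↦ chi ι hsa (φ (MvPowerSeries.X j))) 0 s
      + (p : Ω) ^ M * shiftVec p N (vec fun j ↦ chi ι hsa (φ (MvPowerSeries.X j)))
          ((ι (WittVector.teichmuller p c) : intRing Ω) : Ω) i s
      = lam * imp p N (vec a) 0 s := by
  classical
  set b : Fin (N + 1 - 1) → intRing Ω := fun j ↦ chi ι hsa (φ (MvPowerSeries.X j)) with hb_def
  have hbr : ∀ j, ‖(b j : Ω)‖ ≤ r := fun j ↦ norm_chi_le ι hsa S.r_nonneg S.r_lt hp' ha (by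
    rw [resLT_auto hW, resLT_X])
  have hsb : IsSmall b := fun j ↦ isTopologicallyNilpotent_intRing.mpr ((hbr j).trans_lt S.r_lt)
  set χa := chi ι hsa
  set χb := chi ι hsb
  set C₀ : Ω := ((ι (WittVector.teichmuller p c) : intRing Ω) : Ω)
  have hC : C₀ ^ p ^ (N + 1) = C₀ := by
    rw [← SubmonoidClass.coe_pow, ← map_pow, ← map_pow, hc]
  have hCt : ∀ k t, C₀ ^ p ^ ((N + 1) * k + t) = C₀ ^ p ^ t := by
    intro k t
    induction k with
    | zero => simp
    | succ k ih =>
      rw [show (N + 1) * (k + 1) + t = (N + 1) + ((N + 1) * k + t) by ring, pow_add, pow_mul, hC, ih]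
  set A : PowerSeries (intRing Ω) := PowerSeries.map χa θ
  set B : PowerSeries (intRing Ω) := PowerSeries.map χb (gLift p (N + 1) c i.1 M)
  have hAB : Bd (A - B) r := by
    intro d
    rw [map_sub, PowerSeries.coeff_map, PowerSeries.coeff_map,
      show χb (PowerSeries.coeff d (gLift p (N + 1) c i.1 M))
        = χa (φ (PowerSeries.coeff d (gLift p (N + 1) c i.1 M))) from (chi_auto ι hW hsa hsb _).symm,
      ← map_sub]
    refine norm_chi_le ι hsa S.r_nonneg S.r_lt hp' ha ?_
    rw [map_sub, resLT_auto hW, ← PowerSeries.coeff_map, ← PowerSeries.coeff_map, hres,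
      map_res_gLift (Nat.succ_ne_zero N), sub_self]
  set ΘΩ := PowerSeries.map (intRing Ω).subtype A
  set GΩ := PowerSeries.map (intRing Ω).subtype B
  set La := Haz.logAt p (pointF a)
  set Lb := Haz.logAt p (pointF b)
  have hlawA : ((lawLT p (N + 1)).map ((intRing Ω).subtype.comp χa))
      = (Haz.law p (N + 1)).map (pointF a) := by
    refine FormalGroup.ext ?_
    simp only [lawLT, FormalGroup.map_toPowerSeries, MvPowerSeries.map_map, pointF]
    rw [RingHom.comp_assoc, chi_comp_toLT]
  have hlawB : (((lawLT p (N + 1)).map φ.toRingHom).map ((intRing Ω).subtype.comp χa))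
      = (Haz.law p (N + 1)).map (pointF b) := by
    refine FormalGroup.ext ?_
    simp only [lawLT, FormalGroup.map_toPowerSeries, MvPowerSeries.map_map, pointF]
    congr 2
    refine MvPolynomial.ringHom_ext (fun z ↦ by simp) fun j ↦ ?_
    simp [pointHom, toLT, hb_def, χa]
  have hhom : IsFGHom ((Haz.law p (N + 1)).map (pointF a)) ((Haz.law p (N + 1)).map (pointF b)) ΘΩ := by
    have h := IsFGHom.map (F := lawLT p (N + 1)) (G := (lawLT p (N + 1)).map φ.toRingHom)
      (H := θ) ⟨hθ.1, hθ.2.2⟩ ((intRing Ω).subtype.comp χa)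
    rw [hlawA, hlawB] at h
    convert h using 1
    ext d
    simp [ΘΩ, A]
  refine ⟨PowerSeries.coeff 1 ΘΩ, fun s ↦ ?_⟩
  set lam := PowerSeries.coeff 1 ΘΩ
  have hlog := log_comp_hom (p := p) _ _ hhom
  have hcΘ : MvPowerSeries.constantCoeff ΘΩ = 0 := hhom.1
  set u : PowerSeries Ω := PowerSeries.C C₀ * PowerSeries.X ^ p ^ i.1
  have hG : GΩ = MvPowerSeries.subst ![(PowerSeries.X : PowerSeries Ω), PowerSeries.subst u
      (MvPowerSeries.map (pointF b) (Haz.mulSeries p (N + 1) ((p : ℤ) ^ M)))]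
      ((Haz.law p (N + 1)).map (pointF b)).toPowerSeries := by
    have h := map_gLift ((intRing Ω).subtype.comp χb) c i.1 M
    rw [RingHom.comp_assoc, chi_comp_toLT] at h
    rw [show GΩ = PowerSeries.map ((intRing Ω).subtype.comp χb) (gLift p (N + 1) c i.1 M) by
      ext d; simp [GΩ, B], h]
    congr 3
    simp [u, C₀, χb, chi_apply, pointF]
  have hpair := Haz.constantCoeff_pair (R := Ω)
    (PowerSeries.constantCoeff_X : MvPowerSeries.constantCoeff (PowerSeries.X : PowerSeries Ω) = 0)
    (constantCoeff_inner (p := p) (pointF b) C₀ i.1 M)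
  have hcG : MvPowerSeries.constantCoeff GΩ = 0 := by
    rw [hG]
    exact MvPowerSeries.constantCoeff_subst_eq_zero (hasSubst_of_constantCoeff_zero hpair) hpair
      ((Haz.law p (N + 1)).map (pointF b)).zero_constantCoeff
  have hLG : PowerSeries.subst GΩ Lb = Lb + ((p : ℤ) ^ M) • PowerSeries.subst u Lb := by
    rw [hG, Haz.logAt_law_subst _ hpair]
    congr 1
    · exact PowerSeries.X_subst _
    · simp only [Matrix.cons_val_one, Matrix.cons_val_fin_one]
      rw [← ps_subst_subst (c := MvPowerSeries.map (pointF b)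
          (Haz.mulSeries p (N + 1) ((p : ℤ) ^ M))) (show MvPowerSeries.constantCoeff _ = 0 by
          simp [Haz.constantCoeff_mulSeries]) (constantCoeff_mon (p := p) C₀ i.1),
        show PowerSeries.subst (MvPowerSeries.map (pointF b)
          (Haz.mulSeries p (N + 1) ((p : ℤ) ^ M))) Lb = ((p : ℤ) ^ M) • Lb from
            Haz.logAt_mulSeries (pointF b) _, zsmul_eq_mul, zsmul_eq_mul,
        PowerSeries.subst_mul (PowerSeries.HasSubst.of_constantCoeff_zero (constantCoeff_mon _ _)),
        ← PowerSeries.coe_substAlgHom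
          (PowerSeries.HasSubst.of_constantCoeff_zero (constantCoeff_mon _ _)), map_intCast]
  set α := vec a
  set β := vec b
  set H : ℕ → Ω := fun m ↦
    if i.1 ≤ m then C₀ ^ p ^ (m - i.1) * base p N β (m - i.1) else 0
  have hb' : ∀ k, PowerSeries.coeff (p ^ k) Lb = base p N β k := fun k ↦ by
    rw [Haz.coeff_logAt]; exact congrFun (ellAt_eq_base b) k
  have ha' : ∀ k, PowerSeries.coeff (p ^ k) La = base p N α k := fun k ↦ by
    rw [Haz.coeff_logAt]; exact congrFun (ellAt_eq_base a) k
  have hu : ∀ m, PowerSeries.coeff (p ^ m) (PowerSeries.subst u Lb) = H m := by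
    intro m
    have hu0 : MvPowerSeries.constantCoeff u = 0 := constantCoeff_mon C₀ i.1
    rw [ps_coeff_eq, FESetting.coeff_subst_eq_sum (p := p) _ (Haz.logAt_zero _)
      (Haz.coeff_logAt_ne _) hu0 (N := p ^ m) (by simp)]
    have hterm : ∀ k, MvPowerSeries.coeff (Finsupp.single () (p ^ m)) (u ^ p ^ k)
        = if m = i.1 + k then C₀ ^ p ^ k else 0 := by
      intro k
      rw [← ps_coeff_eq, mul_pow, ← map_pow, ← pow_mul, ← pow_add,
        PowerSeries.coeff_C_mul, PowerSeries.coeff_X_pow]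
      simp only [(Nat.pow_right_injective hp.out.two_le).eq_iff, mul_ite, mul_one, mul_zero]
    simp only [hterm, H]
    by_cases him : i.1 ≤ m
    · rw [if_pos him, Finset.sum_eq_single (m - i.1)]
      · rw [if_pos (by omega), hb']; ring
      · intro k _ hk; rw [if_neg (by omega), mul_zero]
      · intro h
        exfalso
        rw [Finset.mem_range] at h
        have := (Nat.lt_pow_self (n := m) hp.out.one_lt).le
        omega
    · rw [if_neg him]
      exact Finset.sum_eq_zero fun k _ ↦ by rw [if_neg (by omega), mul_zero]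
  have hαr : ∀ j, ‖α j‖ ≤ r := fun j ↦ ha j
  have hβr : ∀ j, ‖β j‖ ≤ r := fun j ↦ hbr j
  obtain ⟨K, hK1, hK⟩ := exists_bound S N
  set z : ℕ → Ω := fun m ↦ lam * sc p N (base p N α) m
    - (sc p N (base p N β) m + (p : Ω) ^ M * sc p N H m)
  have hz : ∀ m, ‖z m‖ ≤ K * r ^ (m / (N + 1)) := by
    intro m
    have hd := congrArg (PowerSeries.coeff (p ^ m)) hlog
    rw [PowerSeries.coeff_C_mul, ha'] at hd
    have he := congrArg (PowerSeries.coeff (p ^ m)) hLG
    rw [map_add, map_zsmul, zsmul_eq_mul, hb', hu, Int.cast_pow, Int.cast_natCast] at he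
    have e : z m = (p : Ω) ^ (m / (N + 1)) * (PowerSeries.coeff (p ^ m) (PowerSeries.subst ΘΩ Lb)
        - PowerSeries.coeff (p ^ m) (PowerSeries.subst GΩ Lb)) := by
      rw [hd, he]; simp only [z, sc]; ring
    rw [e, ps_coeff_eq,
      FESetting.coeff_subst_eq_sum (p := p) _ (Haz.logAt_zero _) (Haz.coeff_logAt_ne _) hcΘ
        (N := p ^ m) (by simp), ps_coeff_eq (p ^ m) (PowerSeries.subst GΩ Lb),
      FESetting.coeff_subst_eq_sum (p := p) _ (Haz.logAt_zero _) (Haz.coeff_logAt_ne _) hcG
        (N := p ^ m) (by simp), ← Finset.sum_sub_distrib, Finset.mul_sum]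
    have := S.r_nonneg
    refine IsUltrametricDist.norm_sum_le_of_forall_le_of_nonneg (by positivity) fun k _ ↦ ?_
    rw [← mul_sub, hb', ← ps_coeff_eq, ← ps_coeff_eq, coeff_pow_subtype, coeff_pow_subtype]
    by_cases hkm : k ≤ m
    · have hdiv : k / (N + 1) ≤ m / (N + 1) := Nat.div_le_div_right hkm
      have hkd : k / (N + 1) ≤ k := Nat.div_le_self _ _
      rw [show (p : Ω) ^ (m / (N + 1))
        = (p : Ω) ^ (m / (N + 1) - k / (N + 1)) * (p : Ω) ^ (k / (N + 1)) by
          rw [← pow_add, Nat.sub_add_cancel hdiv], mul_assoc, ← mul_assoc ((p : Ω) ^ (k / (N + 1))),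
        norm_mul, norm_mul, norm_pow, ← AddSubgroupClass.coe_sub, ← map_sub]
      calc ‖(p : Ω)‖ ^ (m / (N + 1) - k / (N + 1)) * (‖sc p N (base p N β) k‖ *
            ‖((PowerSeries.coeff (p ^ m) (A ^ p ^ k - B ^ p ^ k) : intRing Ω) : Ω)‖)
          ≤ r ^ (m / (N + 1) - k / (N + 1)) * (K * r ^ (k + 1)) :=
            mul_le_mul (pow_le_pow_left₀ (norm_nonneg _) hp' _)
              (mul_le_mul (base_bound S hK hβr k) (Bd.pow S.r_nonneg S.r_lt.le hp' hAB k _)
                (norm_nonneg _) (by linarith)) (by positivity) (by positivity)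
        _ = K * r ^ (m / (N + 1) - k / (N + 1) + (k + 1)) := by ring
        _ ≤ K * r ^ (m / (N + 1)) := mul_le_mul_of_nonneg_left
            (pow_le_pow_of_le_one S.r_nonneg S.r_lt.le (by omega)) (by linarith)
    · have hlt : p ^ m < p ^ k := Nat.pow_lt_pow_right hp.out.one_lt (by omega)
      have h0 : ∀ {X : PowerSeries Ω}, MvPowerSeries.constantCoeff X = 0 →
          PowerSeries.coeff (p ^ m) (X ^ p ^ k) = 0 := fun {X} hX ↦ by
        rw [ps_coeff_eq]
        exact FESetting.coeff_pow_eq_zero hX (by simpa using hlt)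
      rw [← coeff_pow_subtype, ← coeff_pow_subtype, h0 hcΘ, h0 hcG, sub_self, mul_zero, mul_zero,
        norm_zero]
      positivity
  have hlim0 : Tendsto (fun k ↦ z ((N + 1) * k + s.1)) atTop (𝓝 0) := by
    refine squeeze_zero_norm (fun k ↦ hz _) ?_
    have hq : ∀ k, ((N + 1) * k + s.1) / (N + 1) = k := fun k ↦ by
      rw [Nat.mul_add_div (Nat.succ_pos N), Nat.div_eq_of_lt s.2, add_zero]
    simp only [hq]
    simpa using (tendsto_pow_atTop_nhds_zero_of_lt_one S.r_nonneg S.r_lt).const_mul K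
  have hH : Tendsto (fun k ↦ sc p N H ((N + 1) * k + s.1)) atTop
      (𝓝 (shiftVec p N β C₀ i s)) := by
    have hval : (s - i).1 = if i.1 ≤ s.1 then s.1 - i.1 else N + 1 + s.1 - i.1 := by
      have := i.2; have := s.2
      rw [Fin.val_sub]
      split_ifs with h
      · rw [show N + 1 - i.1 + s.1 = (s.1 - i.1) + (N + 1) by omega, Nat.add_mod_right,
          Nat.mod_eq_of_lt (by omega)]
      · rw [Nat.mod_eq_of_lt (by omega)]; omega
    have hbase : Tendsto (fun k ↦ sc p N (base p N β) ((N + 1) * k + (s - i).1)) atTop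
        (𝓝 (imp p N β 0 (s - i))) := tendsto_wlim S hβr (tendsto_sc_delta 0) (s - i)
    by_cases his : i ≤ s
    · have h1 : i.1 ≤ s.1 := his
      rw [if_pos h1] at hval
      rw [shiftVec, if_pos his, one_mul]
      refine (hbase.const_mul (C₀ ^ p ^ (s - i).1)).congr fun k ↦ ?_
      have hlt := s.2
      simp only [sc, H]
      rw [if_pos (by omega), show (N + 1) * k + s.1 - i.1 = (N + 1) * k + (s - i).1 by omega, hCt,
        Nat.mul_add_div (Nat.succ_pos N), Nat.mul_add_div (Nat.succ_pos N),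
        Nat.div_eq_of_lt s.2, Nat.div_eq_of_lt (s - i).2]
      ring
    · have h1 : ¬ i.1 ≤ s.1 := his
      rw [if_neg h1] at hval
      rw [shiftVec, if_neg his]
      rw [← tendsto_add_atTop_iff_nat 1]
      refine ((hbase.const_mul (p : Ω)).const_mul (C₀ ^ p ^ (s - i).1)).congr fun k ↦ ?_
      have hlt := s.2
      have := i.2
      have he : (N + 1) * (k + 1) = (N + 1) * k + (N + 1) := by ring
      simp only [sc, H]
      rw [if_pos (by omega), show (N + 1) * (k + 1) + s.1 - i.1 = (N + 1) * k + (s - i).1 by omega,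
        hCt, Nat.mul_add_div (Nat.succ_pos N), Nat.mul_add_div (Nat.succ_pos N),
        Nat.div_eq_of_lt s.2, Nat.div_eq_of_lt (s - i).2]
      ring
  have h := ((tendsto_wlim S hαr (tendsto_sc_delta 0) s).const_mul lam).sub
    ((tendsto_wlim S hβr (tendsto_sc_delta 0) s).add (hH.const_mul ((p : Ω) ^ M)))
  exact (sub_eq_zero.mp (tendsto_nhds_unique h hlim0)).symm

end Vale.Agent.P217.CharZero
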