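import Vale.Agent.P217.SeriesTools
import Vale.Agent.P217.LTHensel
import Vale.Agent.P217.Shared
import Vale.Agent.P217.CurveSel

/-!
Points of the Lubin-Tate ring in a field of characteristic zero, translation and derivatives.
-/

noncomputable section

open Filter MvPowerSeries
open scoped MvPowerSeries.WithPiTopology Topology

namespace Vale.Agent.P217.CharZero

section translate

variable {Ω : Type*} [NontriviallyNormedField Ω] [IsUltrametricDist Ω] [CompleteSpace Ω]
  {σ : Type*} [Fintype σ]

/-- The point `a + X` in series over the integers. -/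
def shiftVar (a : σ → intRing Ω) : σ → MvPowerSeries σ (intRing Ω) := fun i ↦ C (a i) + X i

omit [CompleteSpace Ω] [Fintype σ] in
theorem small_shiftVar {a : σ → intRing Ω} (ha : IsSmall a) : IsSmall (shiftVar a) := fun i ↦
  ((ha i).map WithPiTopology.continuous_C).add
    (WithPiTopology.isTopologicallyNilpotent_of_constantCoeff_zero (constantCoeff_X i))

/-- Translation by a small point. -/
def translate {a : σ → intRing Ω} (ha : IsSmall a) :
    MvPowerSeries σ (intRing Ω) →+* MvPowerSeries σ (intRing Ω) :=
  (evHom (small_shiftVar ha)).comp (MvPowerSeries.map C)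

omit [CompleteSpace Ω] [Fintype σ] in
theorem continuous_mapC : Continuous fun g : MvPowerSeries σ (intRing Ω) ↦
    MvPowerSeries.map (C (σ := σ)) g :=
  continuous_pi fun e ↦ WithPiTopology.continuous_C.comp (WithPiTopology.continuous_coeff _ e)

theorem continuous_translate {a : σ → intRing Ω} (ha : IsSmall a) : Continuous (translate ha) := by
  show Continuous fun g ↦ evHom (small_shiftVar ha) (MvPowerSeries.map C g)
  simp only [evHom_apply]
  exact (continuous_ev (small_shiftVar ha)).comp continuous_mapC

theorem translate_apply {a : σ → intRing Ω} (ha : IsSmall a) (f : MvPowerSeries σ (intRing Ω)) :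
    translate ha f = ev (MvPowerSeries.map C f) (shiftVar a) := by
  rw [translate, RingHom.comp_apply, evHom_apply]

theorem constantCoeff_translate {a : σ → intRing Ω} (ha : IsSmall a)
    (f : MvPowerSeries σ (intRing Ω)) : constantCoeff (translate ha f) = ev f a := by
  rw [translate_apply, constantCoeff_ev (small_shiftVar ha) (by
    intro i; simpa [shiftVar] using ha i)]
  congr 1
  funext i
  simp [shiftVar]

omit [CompleteSpace Ω] [Fintype σ] in
theorem continuous_pderiv (j : σ) :
    Continuous fun g : MvPowerSeries σ (intRing Ω) ↦ pderiv (intRing Ω) j g := by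
  refine continuous_pi fun e ↦ ?_
  show Continuous fun g : MvPowerSeries σ (intRing Ω) ↦ coeff e (pderiv (intRing Ω) j g)
  simp only [coeff_pderiv]
  exact (WithPiTopology.continuous_coeff _ _).mul continuous_const

theorem pderiv_translate {a : σ → intRing Ω} (ha : IsSmall a) (f : MvPowerSeries σ (intRing Ω))
    (j : σ) : pderiv (intRing Ω) j (translate ha f) = translate ha (pderiv (intRing Ω) j f) := by
  classical
  refine WithPiTopology.denseRange_toMvPowerSeries.induction_on f
    (isClosed_eq ((continuous_pderiv j).comp (continuous_translate ha))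
      ((continuous_translate ha).comp (continuous_pderiv j))) fun P ↦ ?_
  show pderiv (intRing Ω) j (translate ha (P : MvPowerSeries σ (intRing Ω)))
    = translate ha (pderiv (intRing Ω) j (P : MvPowerSeries σ (intRing Ω)))
  induction P using MvPolynomial.induction_on with
  | C r => rw [MvPolynomial.coe_C, pderiv_C, map_zero, translate_apply, map_C, ev_C, pderiv_C]
  | add P Q hP hQ => simp only [MvPolynomial.coe_add, map_add, hP, hQ]
  | mul_X P i hP =>
    have hX : translate ha (X i) = C (a i) + X i := by
      rw [translate_apply, map_X, ev_X]; rfl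
    simp only [MvPolynomial.coe_mul, MvPolynomial.coe_X, map_mul, Derivation.leibniz, smul_eq_mul,
      map_add, hP, hX, pderiv_C, pderiv_X, zero_add]
    rcases eq_or_ne i j with rfl | h
    · simp
    · simp [Pi.single_eq_of_ne h]

/-- Undoing a translation. -/
theorem translate_neg {a : σ → intRing Ω} (ha : IsSmall a) (hb : IsSmall (-a))
    (f : MvPowerSeries σ (intRing Ω)) : translate hb (translate ha f) = f := by
  rw [translate_apply ha, map_ev (small_shiftVar ha) (continuous_translate hb), MvPowerSeries.map_map]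
  have e1 : ((translate hb).comp (C (σ := σ) (R := intRing Ω))) = C := by
    refine RingHom.ext fun r ↦ ?_
    rw [RingHom.comp_apply, translate_apply, map_C, ev_C]
  have e2 : (translate hb ∘ shiftVar a) = X := by
    funext i
    rw [Function.comp_apply, shiftVar, map_add, translate_apply, translate_apply, map_C, ev_C,
      map_X, ev_X, shiftVar, Pi.neg_apply, map_neg]
    ring
  rw [e1, e2]
  have hsX : IsSmall (X : σ → MvPowerSeries σ (intRing Ω)) := fun i ↦
    WithPiTopology.isTopologicallyNilpotent_of_constantCoeff_zero (constantCoeff_X i)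
  refine WithPiTopology.denseRange_toMvPowerSeries.induction_on f
    (isClosed_eq ((continuous_ev hsX).comp continuous_mapC) continuous_id) fun P ↦ ?_
  show ev (MvPowerSeries.map C (P : MvPowerSeries σ (intRing Ω))) X = P
  induction P using MvPolynomial.induction_on with
  | C r => rw [MvPolynomial.coe_C, map_C, ev_C]
  | add P Q hP hQ => rw [MvPolynomial.coe_add, map_add, ev_add hsX, hP, hQ]
  | mul_X P i hP => rw [MvPolynomial.coe_mul, MvPolynomial.coe_X, map_mul, ev_mul hsX, hP, map_X, ev_X]

theorem eq_zero_of_translate {a : σ → intRing Ω} (ha : IsSmall a)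
    {f : MvPowerSeries σ (intRing Ω)} (h : translate ha f = 0) : f = 0 := by
  have hb : IsSmall (-a) := fun i ↦ isTopologicallyNilpotent_intRing.mpr (by
    simpa using isTopologicallyNilpotent_intRing.mp (ha i))
  rw [← translate_neg ha hb f, h, map_zero]

/-- Evaluation to first order. -/
theorem norm_ev_taylor_le {a b : σ → intRing Ω} {ρ ε : ℝ} (hρ : ρ < 1) (ha : ∀ i, ‖(a i : Ω)‖ ≤ ρ)
    (_hb : ∀ i, ‖(b i : Ω)‖ ≤ ρ) (hε0 : 0 ≤ ε) (hε : ε < 1) (hab : ∀ i, ‖(b i : Ω) - a i‖ ≤ ε)
    (f : MvPowerSeries σ (intRing Ω)) :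
    ‖((ev f b : intRing Ω) : Ω) - (ev f a : intRing Ω)
      - ∑ i, ((b i : Ω) - a i) * ((ev (pderiv (intRing Ω) i f) a : intRing Ω) : Ω)‖ ≤ ε ^ 2 := by
  classical
  have hsa : IsSmall a := fun i ↦ isTopologicallyNilpotent_intRing.mpr ((ha i).trans_lt hρ)
  set d : σ → intRing Ω := fun i ↦ b i - a i with hd
  have hdn : ∀ i, ‖(d i : Ω)‖ ≤ ε := fun i ↦ by simpa [hd] using hab i
  have hsd : IsSmall d := fun i ↦ isTopologicallyNilpotent_intRing.mpr ((hdn i).trans_lt hε)
  set g := translate hsa f with hg
  have hev : ev g d = ev f b := by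
    rw [hg, translate_apply, ← evHom_apply hsd, map_ev (small_shiftVar hsa) (by
      show Continuous fun z ↦ evHom hsd z
      simp only [evHom_apply]; exact continuous_ev hsd), MvPowerSeries.map_map]
    congr 1
    · ext1 e
      simp [evHom_apply hsd]
    · funext i
      rw [Function.comp_apply, shiftVar, map_add, evHom_apply hsd, evHom_apply hsd, ev_C, ev_X, hd]
      exact add_sub_cancel _ _
  have hlin : ∀ i, coeff (Finsupp.single i 1) g = ev (pderiv (intRing Ω) i f) a := fun i ↦ by
    rw [← constantCoeff_translate hsa, ← pderiv_translate, ← coeff_zero_eq_constantCoeff_apply,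
      coeff_pderiv]
    simp [hg]
  have h0 : constantCoeff g = ev f a := constantCoeff_translate hsa f
  have h2 := norm_ev_sub_truncTotal_le g hε0 hε hdn 2
  have htr : MvPolynomial.eval d (truncTotal 2 g)
      = ev f a + ∑ i, d i * ev (pderiv (intRing Ω) i f) a := by
    have : truncTotal 2 g = MvPolynomial.C (constantCoeff g)
        + ∑ i, MvPolynomial.C (coeff (Finsupp.single i 1) g) * MvPolynomial.X i := by
      ext e
      simp only [MvPolynomial.coeff_add, MvPolynomial.coeff_C, MvPolynomial.coeff_sum,
        MvPolynomial.coeff_C_mul, MvPolynomial.coeff_X]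
      rcases lt_or_ge e.degree 2 with he | he
      · rw [coeff_truncTotal g he]
        rcases eq_or_ne e 0 with rfl | h
        · simp [coeff_zero_eq_constantCoeff_apply]
        · obtain ⟨i, hi⟩ : ∃ i, e i ≠ 0 := by
            by_contra hc; push Not at hc; exact h (Finsupp.ext hc)
          have he1 : e = Finsupp.single i 1 := by
            have hsum : ∑ k, e k ≤ 1 := by
              rw [Finsupp.degree_eq_sum] at he; omega
            ext k
            rcases eq_or_ne k i with rfl | hk
            · have := Finset.single_le_sum (f := fun k ↦ e k) (fun k _ ↦ Nat.zero_le _)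
                (Finset.mem_univ k)
              simp only [Finsupp.single_eq_same]; omega
            · rw [Finsupp.single_eq_of_ne hk]
              have := Finset.sum_le_sum_of_subset (f := fun k ↦ e k)
                (show ({i, k} : Finset σ) ⊆ Finset.univ from Finset.subset_univ _)
              rw [Finset.sum_pair (Ne.symm hk)] at this
              omega
          subst he1
          simp [eq_comm, Finsupp.single_left_inj, h]
      · rw [coeff_truncTotal_eq_zero g he, if_neg (fun h ↦ by subst h; simp at he),
          Finset.sum_eq_zero fun i _ ↦ ?_, add_zero]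
        rw [if_neg (fun h ↦ by subst h; simp at he), mul_zero]
    rw [this, h0]
    simp only [map_add, MvPolynomial.eval_C, map_sum, map_mul, MvPolynomial.eval_X, hlin]
    exact congrArg _ (Finset.sum_congr rfl fun i _ ↦ mul_comm _ _)
  rw [hev, htr] at h2
  refine le_trans (le_of_eq (congrArg _ ?_)) h2
  simp only [AddMemClass.coe_add, AddSubmonoidClass.coe_finsetSum, MulMemClass.coe_mul, hd,
    AddSubgroupClass.coe_sub]
  ring

end translate

section chi

variable {p n : ℕ} [hp : Fact p.Prime] {Ω : Type*} [NontriviallyNormedField Ω]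
  [IsUltrametricDist Ω] [CompleteSpace Ω]
  (ι : WittVector p (GaloisField p n) →+* intRing Ω)

theorem resLT_X (i : Fin (n - 1)) : resLT p n (X i) = 0 := by
  simp [resLT]

theorem norm_chi_le {a : Fin (n - 1) → intRing Ω} (ha : IsSmall a) {r : ℝ} (hr0 : 0 ≤ r)
    (hr : r < 1) (hp' : ‖(p : Ω)‖ ≤ r) (har : ∀ i, ‖(a i : Ω)‖ ≤ r) {f : LTRing p n}
    (hf : resLT p n f = 0) : ‖((chi ι ha f : intRing Ω) : Ω)‖ ≤ r := by
  classical
  have h := norm_ev_sub_truncTotal_le (MvPowerSeries.map ι f) hr0 hr har 1
  have e : truncTotal 1 (MvPowerSeries.map ι f) = MvPolynomial.C (ι (constantCoeff f)) := by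
    ext d
    rw [MvPolynomial.coeff_C]
    rcases eq_or_ne d 0 with rfl | hd
    · rw [coeff_truncTotal _ (by simp), if_pos rfl, coeff_zero_eq_constantCoeff_apply,
        constantCoeff_map]
    · rw [coeff_truncTotal_eq_zero _ (by
        rw [Nat.one_le_iff_ne_zero]; simpa [Finsupp.degree_eq_zero_iff] using hd), if_neg (Ne.symm hd)]
  rw [e, MvPolynomial.eval_C, pow_one] at h
  obtain ⟨w, hw⟩ : (p : WittVector p (GaloisField p n)) ∣ constantCoeff f := by
    rw [← Ideal.mem_span_singleton, WittVector.mem_span_p_iff_coeff_zero_eq_zero]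
    exact hf
  have h2 : ‖((ι (constantCoeff f) : intRing Ω) : Ω)‖ ≤ r := by
    rw [hw, map_mul, map_natCast, MulMemClass.coe_mul, norm_mul, SubringClass.coe_natCast]
    exact (mul_le_of_le_one_right (norm_nonneg _) (mem_intRing.mp (Subtype.prop _))).trans hp'
  rw [chi_apply]
  have h3 := (IsUltrametricDist.norm_add_le_max _ _).trans (max_le h h2)
  rwa [sub_add_cancel] at h3

theorem norm_chi_pow_le {a : Fin (n - 1) → intRing Ω} (ha : IsSmall a) {r : ℝ} (hr0 : 0 ≤ r)
    (hr : r < 1) (hp' : ‖(p : Ω)‖ ≤ r) (har : ∀ i, ‖(a i : Ω)‖ ≤ r) (R : ℕ) :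
    ∀ f ∈ IsLocalRing.maximalIdeal (LTRing p n) ^ R, ‖((chi ι ha f : intRing Ω) : Ω)‖ ≤ r ^ R := by
  induction R with
  | zero => intro f _; simpa using mem_intRing.mp (chi ι ha f).2
  | succ R ih =>
    intro f hf
    rw [pow_succ] at hf
    refine Submodule.mul_induction_on hf (fun y hy z hz ↦ ?_) fun y z hy hz ↦ ?_
    · rw [map_mul, MulMemClass.coe_mul, norm_mul, pow_succ]
      refine mul_le_mul (ih y hy) (norm_chi_le ι ha hr0 hr hp' har ?_) (norm_nonneg _) (by positivity)
      rw [← LT.mem_J_one, LT.J_one_eq]
      exact hz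
    · rw [map_add, AddMemClass.coe_add]
      exact (IsUltrametricDist.norm_add_le_max _ _).trans (max_le hy hz)

theorem resLT_auto {φ : LTRing p n ≃+* LTRing p n} (hW : ∀ w, φ (C w) = C w) (f : LTRing p n) :
    resLT p n (φ f) = resLT p n f := by
  have h0 : ∀ g : LTRing p n, resLT p n g = 0 → resLT p n (φ g) = 0 := fun g hg ↦ by
    by_contra hc
    rw [← ne_eq, ← LT.isUnit_iff_resLT] at hc
    exact (LT.isUnit_iff_resLT.mp (by simpa using hc.map φ.symm)) hg
  have h1 := h0 (f - C (constantCoeff f)) (by simp [resLT])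
  rw [map_sub, hW, map_sub, sub_eq_zero] at h1
  rw [h1]
  simp [resLT]

theorem chi_auto {φ : LTRing p n ≃+* LTRing p n} (hW : ∀ w, φ (C w) = C w)
    {a : Fin (n - 1) → intRing Ω} (ha : IsSmall a)
    (hb : IsSmall fun i ↦ chi ι ha (φ (X i))) (f : LTRing p n) :
    chi ι ha (φ f) = chi ι hb f := by
  have h := hom_eq_ev ((chi ι ha).comp φ.toRingHom)
    (fun i ↦ isTopologicallyNilpotent_intRing.mp (hb i)) f
  rw [RingHom.comp_apply] at h
  refine Eq.trans ?_ (h.trans ?_)
  · rfl
  · rw [chi_apply]
    rw [show ((chi ι ha).comp φ.toRingHom).comp C = ι from RingHom.ext fun w ↦ by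
      simp [hW, chi_apply]]
    rfl

end chi

end Vale.Agent.P217.CharZero
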