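import Mathlib.Analysis.Normed.Group.Ultra
import Mathlib.Analysis.Normed.Ring.Ultra
import Mathlib.Analysis.Normed.Field.Basic
import Mathlib.Analysis.SpecificLimits.Normed
import Mathlib.LinearAlgebra.Matrix.NonsingularInverse
import Mathlib.Tactic.FieldSimp
import Mathlib.Tactic.LinearCombination
import Mathlib.Algebra.BigOperators.Field
import Mathlib.Algebra.CharZero.Defs

/-!
Limits of the scaled logarithm coefficients at a point of characteristic zero: the linear
recursion, its bound, first order expansion, and independence of the derivatives.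
-/

noncomputable section

open Filter Finset
open scoped Topology

namespace Vale.Agent.P217.CharZero

variable {Ω : Type*} [NontriviallyNormedField Ω]

/-- The solution of `x m = F m + ∑ α_j^(p^(m-j-1)) x (m-j-1) / p + x (m-N-1) / p`. -/
def sol (p N : ℕ) (α : Fin N → Ω) (F : ℕ → Ω) : ℕ → Ω
  | m => F m + (∑ j : Fin N, if _h : j.1 < m then
      α j ^ p ^ (m - (j.1 + 1)) / (p : Ω) * sol p N α F (m - (j.1 + 1)) else 0) +
      if _h : N < m then sol p N α F (m - (N + 1)) / (p : Ω) else 0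
termination_by m => m

/-- The right hand side of the recursion without the forcing term. -/
def step (p N : ℕ) (α : Fin N → Ω) (x : ℕ → Ω) (m : ℕ) : Ω :=
  (∑ j : Fin N, if j.1 < m then α j ^ p ^ (m - (j.1 + 1)) / (p : Ω) * x (m - (j.1 + 1)) else 0) +
    if N < m then x (m - (N + 1)) / (p : Ω) else 0

variable {p N : ℕ} {α β : Fin N → Ω}

theorem sol_eq (F : ℕ → Ω) (m : ℕ) : sol p N α F m = F m + step p N α (sol p N α F) m := by
  rw [sol, step, add_assoc]
  simp only [dite_eq_ite]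

theorem sol_unique {F x : ℕ → Ω} (h : ∀ m, x m = F m + step p N α x m) : x = sol p N α F := by
  funext m
  induction m using Nat.strong_induction_on with
  | _ m ih =>
    rw [h m, sol_eq, step, step]
    congr 2
    · refine sum_congr rfl fun j _ ↦ ?_
      split_ifs with hj
      · rw [ih _ (by omega)]
      · rfl
    · split_ifs with hN
      · rw [ih _ (by omega)]
      · rfl

theorem step_add (x y : ℕ → Ω) (c : Ω) (m : ℕ) :
    step p N α (fun k ↦ x k + c * y k) m = step p N α x m + c * step p N α y m := by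
  simp only [step, mul_add, mul_sum, add_div]
  rw [add_add_add_comm, ← sum_add_distrib]
  congr 1
  · refine sum_congr rfl fun j _ ↦ ?_
    split_ifs <;> ring
  · split_ifs <;> ring

theorem sol_add (F G : ℕ → Ω) (c : Ω) :
    sol p N α (fun k ↦ F k + c * G k) = fun k ↦ sol p N α F k + c * sol p N α G k := by
  refine (sol_unique fun m ↦ ?_).symm
  rw [step_add, sol_eq F m, sol_eq G m]
  ring

theorem sol_zero : sol p N α (fun _ ↦ 0) = fun _ ↦ (0 : Ω) :=
  (sol_unique fun m ↦ by simp [step]).symm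

theorem sol_sum {ι : Type*} (s : Finset ι) (c : ι → Ω) (F : ι → ℕ → Ω) :
    sol p N α (fun m ↦ ∑ i ∈ s, c i * F i m) = fun m ↦ ∑ i ∈ s, c i * sol p N α (F i) m := by
  classical
  induction s using Finset.induction_on with
  | empty => simp only [sum_empty]; exact sol_zero
  | insert i s hi ih =>
    simp only [sum_insert hi]
    rw [show (fun m ↦ c i * F i m + ∑ l ∈ s, c l * F l m) =
      fun m ↦ (∑ l ∈ s, c l * F l m) + c i * F i m by funext m; ring, sol_add, ih]
    funext m; ring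

variable (p N) in
/-- Scaling at index `m`. -/
def sc (x : ℕ → Ω) (m : ℕ) : Ω := (p : Ω) ^ (m / (N + 1)) * x m

/-- The forcing of `δ_t`. -/
def delta (t : ℕ) : ℕ → Ω := Pi.single t 1

theorem delta_relation (t : ℕ) :
    sol p N α (fun m ↦ delta t m - ((∑ j : Fin N, α j ^ p ^ t / (p : Ω) * delta (t + j.1 + 1) m)
      + 1 / (p : Ω) * delta (t + N + 1) m)) = delta t := by
  refine (sol_unique fun m ↦ ?_).symm
  simp only [step]
  have h1 : ∀ j : Fin N, (if j.1 < m then
      α j ^ p ^ (m - (j.1 + 1)) / (p : Ω) * delta t (m - (j.1 + 1)) else 0)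
      = α j ^ p ^ t / (p : Ω) * delta (t + j.1 + 1) m := by
    intro j
    by_cases h : m = t + j.1 + 1
    · subst h
      rw [if_pos (by omega), show t + j.1 + 1 - (j.1 + 1) = t by omega]
      simp [delta]
    · simp only [delta, Pi.single_apply]
      rw [if_neg h, mul_zero]
      split_ifs with h2 h3
      · omega
      · rw [mul_zero]
      · rfl
  have h2 : (if N < m then delta t (m - (N + 1)) / (p : Ω) else 0)
      = 1 / (p : Ω) * delta (t + N + 1) m := by
    by_cases h : m = t + N + 1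
    · subst h
      rw [if_pos (by omega), show t + N + 1 - (N + 1) = t by omega]
      simp [delta]
    · simp only [delta, Pi.single_apply]
      rw [if_neg h, mul_zero]
      split_ifs with h2 h3
      · omega
      · rw [zero_div]
      · rfl
  rw [sum_congr rfl fun j _ ↦ h1 j, h2, sub_add_cancel]

variable [IsUltrametricDist Ω]

theorem norm_add_le_of_le {x y : Ω} {B : ℝ} (hx : ‖x‖ ≤ B) (hy : ‖y‖ ≤ B) : ‖x + y‖ ≤ B :=
  (IsUltrametricDist.norm_add_le_max x y).trans (max_le hx hy)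

theorem norm_sub_le_of_le {x y : Ω} {B : ℝ} (hx : ‖x‖ ≤ B) (hy : ‖y‖ ≤ B) : ‖x - y‖ ≤ B := by
  rw [sub_eq_add_neg]
  exact norm_add_le_of_le hx (by rwa [norm_neg])

/-- The standing hypotheses on the residue characteristic and the radius. -/
structure Setup (Ω : Type*) [NontriviallyNormedField Ω] (p : ℕ) (r : ℝ) : Prop where
  two_le : 2 ≤ p
  ne_zero : (p : Ω) ≠ 0
  small : ‖(p : Ω)‖ < 1
  r_nonneg : 0 ≤ r
  r_lt : r < 1

variable {r : ℝ}

omit [IsUltrametricDist Ω] in
theorem Setup.pos (S : Setup Ω p r) : 0 < ‖(p : Ω)‖ := norm_pos_iff.mpr S.ne_zero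

/-- The size of the coefficient at exponent `p ^ t`. -/
def cb (Ω : Type*) [NontriviallyNormedField Ω] (p : ℕ) (r : ℝ) (t : ℕ) : ℝ :=
  r ^ (p ^ t) / ‖(p : Ω)‖

omit [IsUltrametricDist Ω] in
theorem cb_le (S : Setup Ω p r) {s t : ℕ} (h : s ≤ t) : cb Ω p r t ≤ cb Ω p r s := by
  refine div_le_div_of_nonneg_right ?_ (norm_nonneg _)
  exact pow_le_pow_of_le_one S.r_nonneg S.r_lt.le
    (Nat.pow_le_pow_right (by linarith [S.two_le]) h)

omit [IsUltrametricDist Ω] in
theorem cb_nonneg (S : Setup Ω p r) (t : ℕ) : 0 ≤ cb Ω p r t := by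
  have := S.r_nonneg; have := S.pos; unfold cb; positivity

omit [IsUltrametricDist Ω] in
theorem cb_le_inv (S : Setup Ω p r) (t : ℕ) : cb Ω p r t ≤ ‖(p : Ω)‖⁻¹ := by
  rw [cb, div_eq_mul_inv]
  exact mul_le_of_le_one_left (inv_nonneg.mpr (norm_nonneg _))
    (pow_le_one₀ S.r_nonneg S.r_lt.le)

omit [IsUltrametricDist Ω] in
theorem tendsto_cb (S : Setup Ω p r) : Tendsto (cb Ω p r) atTop (𝓝 0) := by
  have h := ((tendsto_pow_atTop_nhds_zero_of_lt_one S.r_nonneg S.r_lt).comp
    (tendsto_pow_atTop_atTop_of_one_lt (show 1 < p from S.two_le))).div_const ‖(p : Ω)‖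
  rwa [zero_div] at h

omit [IsUltrametricDist Ω] in
/-- The terms of the recursion after scaling. -/
theorem norm_term_le (S : Setup Ω p r) {x : ℕ → Ω} {c : Ω} {m i t : ℕ} (hc : ‖c‖ ≤ r ^ p ^ t) :
    ‖(p : Ω) ^ (m / (N + 1)) * (c / (p : Ω) * x (m - i))‖
      ≤ cb Ω p r t * ‖sc p N x (m - i)‖ := by
  rw [sc, norm_mul, norm_mul, norm_mul, norm_div, norm_pow, norm_pow, cb]
  have h1 : ‖(p : Ω)‖ ^ (m / (N + 1)) ≤ ‖(p : Ω)‖ ^ ((m - i) / (N + 1)) :=
    pow_le_pow_of_le_one (norm_nonneg _) S.small.le (Nat.div_le_div_right (Nat.sub_le m i))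
  have h2 : ‖c‖ / ‖(p : Ω)‖ ≤ r ^ p ^ t / ‖(p : Ω)‖ :=
    div_le_div_of_nonneg_right hc (norm_nonneg _)
  have := S.r_nonneg
  calc ‖(p : Ω)‖ ^ (m / (N + 1)) * (‖c‖ / ‖(p : Ω)‖ * ‖x (m - i)‖)
      ≤ ‖(p : Ω)‖ ^ ((m - i) / (N + 1)) * (r ^ p ^ t / ‖(p : Ω)‖ * ‖x (m - i)‖) :=
        mul_le_mul h1 (mul_le_mul_of_nonneg_right h2 (norm_nonneg _)) (by positivity) (by positivity)
    _ = _ := by ring

omit [IsUltrametricDist Ω] in
theorem sc_last (S : Setup Ω p r) {x : ℕ → Ω} {m : ℕ} (hm : N < m) :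
    (p : Ω) ^ (m / (N + 1)) * (x (m - (N + 1)) / (p : Ω)) = sc p N x (m - (N + 1)) := by
  have hp := S.ne_zero
  have h : m / (N + 1) = (m - (N + 1)) / (N + 1) + 1 := by
    rw [← Nat.add_div_right _ (Nat.succ_pos N), Nat.sub_add_cancel hm]
  rw [sc, h, pow_succ]
  field_simp

/-- One step of the scaled recursion: the small part. -/
theorem norm_sc_step (S : Setup Ω p r) (hα : ∀ j, ‖α j‖ ≤ r) {F : ℕ → Ω} {m : ℕ} {B : ℝ}
    (hB : 0 ≤ B) (hF : ‖sc p N F m‖ ≤ B)
    (hterm : ∀ j : Fin N, j.1 < m →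
      cb Ω p r (m - (j.1 + 1)) * ‖sc p N (sol p N α F) (m - (j.1 + 1))‖ ≤ B) :
    ‖sc p N (sol p N α F) m -
      (if N < m then sc p N (sol p N α F) (m - (N + 1)) else 0)‖ ≤ B := by
  have e : sc p N (sol p N α F) m - (if N < m then sc p N (sol p N α F) (m - (N + 1)) else 0)
      = sc p N F m + ∑ j : Fin N, (p : Ω) ^ (m / (N + 1)) * (if j.1 < m then
          α j ^ p ^ (m - (j.1 + 1)) / (p : Ω) * sol p N α F (m - (j.1 + 1)) else 0) := by
    have hlast : (p : Ω) ^ (m / (N + 1)) *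
        (if N < m then sol p N α F (m - (N + 1)) / (p : Ω) else 0)
        = if N < m then sc p N (sol p N α F) (m - (N + 1)) else 0 := by
      split_ifs with h
      · exact sc_last S h
      · ring
    rw [show sc p N (sol p N α F) m = (p : Ω) ^ (m / (N + 1)) *
        (F m + step p N α (sol p N α F) m) by rw [sc, ← sol_eq], step, mul_add, mul_add, mul_sum,
      hlast, ← add_assoc, add_sub_cancel_right]
    rfl
  rw [e]
  refine norm_add_le_of_le hF (IsUltrametricDist.norm_sum_le_of_forall_le_of_nonneg hB fun j _ ↦ ?_)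
  split_ifs with h
  · refine (norm_term_le S ?_).trans (hterm j h)
    rw [norm_pow]
    exact pow_le_pow_left₀ (norm_nonneg _) (hα j) _
  · simpa using hB

/-- The scaled solution is bounded by the scaled forcing, uniformly in the point. -/
theorem exists_bound (S : Setup Ω p r) (N : ℕ) : ∃ K : ℝ, 1 ≤ K ∧ ∀ α : Fin N → Ω,
    (∀ j, ‖α j‖ ≤ r) → ∀ (F : ℕ → Ω) (B : ℝ), 0 ≤ B → (∀ m, ‖sc p N F m‖ ≤ B) →
      ∀ m, ‖sc p N (sol p N α F) m‖ ≤ K * B := by
  set κ := ‖(p : Ω)‖⁻¹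
  have hκ : 1 ≤ κ := (one_le_inv₀ S.pos).mpr S.small.le
  obtain ⟨T, hT⟩ := eventually_atTop.mp
    ((tendsto_cb S).eventually (eventually_le_nhds (show (0 : ℝ) < 1 from one_pos)))
  refine ⟨κ ^ (T + N + 1), one_le_pow₀ hκ, fun α hα F B hB hF m ↦ ?_⟩
  set M := T + N + 1 with hM
  suffices h : ∀ m, ‖sc p N (sol p N α F) m‖ ≤ κ ^ min m M * B from
    (h m).trans (mul_le_mul_of_nonneg_right (pow_le_pow_right₀ hκ (min_le_right _ _)) hB)
  intro m
  induction m using Nat.strong_induction_on with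
  | _ m ih =>
    have hmono : ∀ k, k ≤ m → κ ^ min k M * B ≤ κ ^ min m M * B := fun k hk ↦
      mul_le_mul_of_nonneg_right (pow_le_pow_right₀ hκ (min_le_min_right M hk)) hB
    have h0 : 0 ≤ κ ^ min m M * B := by positivity
    have h1 : ‖sc p N (sol p N α F) m -
        (if N < m then sc p N (sol p N α F) (m - (N + 1)) else 0)‖ ≤ κ ^ min m M * B := by
      refine norm_sc_step S hα h0 ((hF m).trans (le_mul_of_one_le_left hB (one_le_pow₀ hκ)))
        fun j hj ↦ ?_
      have hk := ih (m - (j.1 + 1)) (by omega)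
      have hj' := j.2
      rcases le_or_gt m M with hm | hm
      · calc cb Ω p r (m - (j.1 + 1)) * ‖sc p N (sol p N α F) (m - (j.1 + 1))‖
            ≤ κ * (κ ^ min (m - (j.1 + 1)) M * B) :=
              mul_le_mul (cb_le_inv S _) hk (norm_nonneg _) (by positivity)
          _ = κ ^ (min (m - (j.1 + 1)) M + 1) * B := by ring
          _ ≤ κ ^ min m M * B :=
              mul_le_mul_of_nonneg_right (pow_le_pow_right₀ hκ (by omega)) hB
      · exact (mul_le_of_le_one_left (norm_nonneg _) (hT _ (by omega))).trans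
          (hk.trans (hmono _ (Nat.sub_le _ _)))
    have h2 : ‖(if N < m then sc p N (sol p N α F) (m - (N + 1)) else 0)‖
        ≤ κ ^ min m M * B := by
      split_ifs with h
      · exact (ih _ (by omega)).trans (hmono _ (Nat.sub_le _ _))
      · simpa using h0
    simpa using norm_add_le_of_le h1 h2

omit [IsUltrametricDist Ω] in
theorem exists_forcing_bound {F : ℕ → Ω} (hF : Tendsto (sc p N F) atTop (𝓝 0)) :
    ∃ B, 0 ≤ B ∧ ∀ m, ‖sc p N F m‖ ≤ B := by
  obtain ⟨B, hB⟩ := (isBounded_iff_forall_norm_le.mp (Metric.isBounded_range_of_tendsto _ hF))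
  exact ⟨B, (norm_nonneg _).trans (hB _ ⟨0, rfl⟩), fun m ↦ hB _ ⟨m, rfl⟩⟩

variable (p N) in
/-- The limit vector. -/
def wlim (α : Fin N → Ω) (F : ℕ → Ω) (s : Fin (N + 1)) : Ω :=
  limUnder atTop fun k ↦ sc p N (sol p N α F) ((N + 1) * k + s.1)

variable [CompleteSpace Ω]

theorem tendsto_wlim (S : Setup Ω p r) (hα : ∀ j, ‖α j‖ ≤ r) {F : ℕ → Ω}
    (hF : Tendsto (sc p N F) atTop (𝓝 0)) (s : Fin (N + 1)) :
    Tendsto (fun k ↦ sc p N (sol p N α F) ((N + 1) * k + s.1)) atTop (𝓝 (wlim p N α F s)) := by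
  obtain ⟨B, hB0, hB⟩ := exists_forcing_bound hF
  obtain ⟨K, hK1, hK⟩ := exists_bound S N
  refine (cauchySeq_tendsto_of_complete ?_).elim fun l hl ↦ tendsto_nhds_limUnder ⟨l, hl⟩
  rw [Metric.cauchySeq_iff']
  intro ε hε
  have hev : ∀ᶠ m in atTop, ‖sc p N F m‖ ≤ ε / 2 ∧ cb Ω p r m * (K * B) ≤ ε / 2 :=
    (((tendsto_zero_iff_norm_tendsto_zero.mp hF).eventually (eventually_le_nhds (half_pos hε))).and
      (((tendsto_cb S).mul_const (K * B)).eventually (eventually_le_nhds (by simp [hε]))))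
  obtain ⟨T, hT⟩ := eventually_atTop.mp hev
  refine ⟨T, fun k hk ↦ ?_⟩
  rw [dist_eq_norm]
  refine lt_of_le_of_lt ?_ (half_lt_self hε)
  induction k, hk using Nat.le_induction with
  | base => simp only [sub_self, norm_zero]; positivity
  | succ k hk ih =>
    set z := sc p N (sol p N α F)
    rw [show z ((N + 1) * (k + 1) + s.1) - z ((N + 1) * T + s.1)
      = (z ((N + 1) * (k + 1) + s.1) - z ((N + 1) * k + s.1))
        + (z ((N + 1) * k + s.1) - z ((N + 1) * T + s.1)) by ring]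
    refine norm_add_le_of_le ?_ ih
    have hNk : T ≤ (N + 1) * k := le_trans hk (Nat.le_mul_of_pos_left k (Nat.succ_pos N))
    have hm : (N + 1) * (k + 1) + s.1 = ((N + 1) * k + s.1) + (N + 1) := by ring
    have h := norm_sc_step (F := F) (m := ((N + 1) * k + s.1) + (N + 1)) S hα (half_pos hε).le
      (hT _ (by omega)).1 fun j hj ↦ by
        have := j.2
        refine le_trans (mul_le_mul_of_nonneg_left (hK α hα F B hB0 hB _) (cb_nonneg S _))
          (hT _ (by omega)).2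
    rw [if_pos (by omega), Nat.add_sub_cancel] at h
    rw [hm]
    exact h

theorem norm_wlim_le (S : Setup Ω p r) {K : ℝ} (hK : ∀ α : Fin N → Ω,
    (∀ j, ‖α j‖ ≤ r) → ∀ (F : ℕ → Ω) (B : ℝ), 0 ≤ B → (∀ m, ‖sc p N F m‖ ≤ B) →
      ∀ m, ‖sc p N (sol p N α F) m‖ ≤ K * B)
    (hα : ∀ j, ‖α j‖ ≤ r) {F : ℕ → Ω} (hF : Tendsto (sc p N F) atTop (𝓝 0)) {B : ℝ} (hB0 : 0 ≤ B)
    (hB : ∀ m, ‖sc p N F m‖ ≤ B) (s : Fin (N + 1)) : ‖wlim p N α F s‖ ≤ K * B :=
  le_of_tendsto (tendsto_wlim S hα hF s).norm (Eventually.of_forall fun _ ↦ hK α hα F B hB0 hB _)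

omit [IsUltrametricDist Ω] [CompleteSpace Ω] in
theorem tendsto_sc_add {F G : ℕ → Ω} (hF : Tendsto (sc p N F) atTop (𝓝 0))
    (hG : Tendsto (sc p N G) atTop (𝓝 0)) (c : Ω) :
    Tendsto (sc p N fun k ↦ F k + c * G k) atTop (𝓝 0) := by
  have := hF.add (hG.const_mul c)
  rw [mul_zero, add_zero] at this
  refine this.congr fun m ↦ ?_
  simp only [sc]; ring

theorem wlim_add (S : Setup Ω p r) (hα : ∀ j, ‖α j‖ ≤ r) {F G : ℕ → Ω}
    (hF : Tendsto (sc p N F) atTop (𝓝 0)) (hG : Tendsto (sc p N G) atTop (𝓝 0)) (c : Ω)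
    (s : Fin (N + 1)) :
    wlim p N α (fun k ↦ F k + c * G k) s = wlim p N α F s + c * wlim p N α G s := by
  refine tendsto_nhds_unique (tendsto_wlim S hα (tendsto_sc_add hF hG c) s)
    (((tendsto_wlim S hα hF s).add ((tendsto_wlim S hα hG s).const_mul c)).congr fun k ↦ ?_)
  rw [sol_add]; simp only [sc]; ring

omit [IsUltrametricDist Ω] [CompleteSpace Ω] in
theorem tendsto_sc_delta (t : ℕ) : Tendsto (sc p N (delta t : ℕ → Ω)) atTop (𝓝 0) :=
  tendsto_const_nhds.congr' (eventually_atTop.mpr ⟨t + 1, fun m hm ↦ by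
    simp [sc, delta, show m ≠ t by omega]⟩)

/-- The impulse responses. -/
def imp (p N : ℕ) (α : Fin N → Ω) (t : ℕ) (s : Fin (N + 1)) : Ω := wlim p N α (delta t) s

/-- The impulse responses satisfy the dual recursion. -/
theorem imp_relation (S : Setup Ω p r) (hα : ∀ j, ‖α j‖ ≤ r) (t : ℕ) (s : Fin (N + 1)) :
    imp p N α (t + N + 1) s
      = (p : Ω) * imp p N α t s - ∑ j : Fin N, α j ^ p ^ t * imp p N α (t + j.1 + 1) s := by
  have hp := S.ne_zero
  set G := imp p N α
  have key : ∀ (fs : Finset (Fin N)) (c : Fin N → Ω), Tendsto (fun k ↦ sc p N (sol p N α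
      fun m ↦ ∑ j ∈ fs, c j * delta (t + j.1 + 1) m) ((N + 1) * k + s.1)) atTop
      (𝓝 (∑ j ∈ fs, c j * G (t + j.1 + 1) s)) := by
    intro fs c
    refine (tendsto_finsetSum fs fun j _ ↦
      (tendsto_wlim S hα (tendsto_sc_delta (t + j.1 + 1)) s).const_mul (c j)).congr fun k ↦ ?_
    rw [sol_sum]
    simp only [sc, mul_sum]
    exact sum_congr rfl fun j _ ↦ by ring
  have h1 := ((tendsto_wlim S hα (tendsto_sc_delta t) s).sub
    ((key univ fun j ↦ α j ^ p ^ t / (p : Ω)).add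
      ((tendsto_wlim S hα (tendsto_sc_delta (t + N + 1)) s).const_mul (1 / (p : Ω)))))
  have h2 : Tendsto (fun k ↦ sc p N (delta t : ℕ → Ω) ((N + 1) * k + s.1)) atTop (𝓝 0) :=
    (tendsto_sc_delta t).comp (tendsto_atTop_mono
      (fun k ↦ (Nat.le_mul_of_pos_left k (Nat.succ_pos N)).trans (Nat.le_add_right _ _)) tendsto_id)
  have e : imp p N α t s - ((∑ j : Fin N, α j ^ p ^ t / (p : Ω) * G (t + j.1 + 1) s)
      + 1 / (p : Ω) * imp p N α (t + N + 1) s) = 0 := by
    refine tendsto_nhds_unique h1 (h2.congr fun k ↦ ?_)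
    conv_lhs => rw [← delta_relation (p := p) (N := N) (α := α) t]
    rw [show (fun m ↦ delta t m - ((∑ j : Fin N, α j ^ p ^ t / (p : Ω) * delta (t + j.1 + 1) m)
        + 1 / (p : Ω) * delta (t + N + 1) m)) = fun m ↦
        (fun m ↦ delta t m + (-1) * ∑ j : Fin N, α j ^ p ^ t / (p : Ω) * delta (t + j.1 + 1) m) m
          + (-(1 / (p : Ω))) * delta (t + N + 1) m by funext m; ring, sol_add, sol_add]
    simp only [sc]; ring
  have e2 : ∑ j : Fin N, α j ^ p ^ t / (p : Ω) * G (t + j.1 + 1) s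
      = (∑ j : Fin N, α j ^ p ^ t * G (t + j.1 + 1) s) / (p : Ω) := by
    rw [Finset.sum_div]; exact sum_congr rfl fun j _ ↦ by ring
  rw [e2] at e
  set A := ∑ j : Fin N, α j ^ p ^ t * G (t + j.1 + 1) s
  have e3 : (imp p N α t s - (A / (p : Ω) + 1 / (p : Ω) * imp p N α (t + N + 1) s)) * (p : Ω)
      = 0 := by rw [e, zero_mul]
  rw [sub_mul, add_mul, div_mul_cancel₀ _ hp, mul_right_comm, one_div_mul_cancel hp, one_mul] at e3
  show imp p N α (t + N + 1) s = (p : Ω) * imp p N α t s - A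
  linear_combination -e3

end Vale.Agent.P217.CharZero
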